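import Mathlib

/-! Combinatorics of free groups used for row 95. -/

set_option autoImplicit false

namespace Crest.Agent.R95

variable {ι : Type*} [DecidableEq ι]

/-- Elements whose reduced word only uses letters satisfying `p`. -/
def Supp (p : ι → Prop) : Subgroup (FreeGroup ι) where
  carrier := {g | ∀ l ∈ g.toWord, p l.1}
  mul_mem' := by
    intro a b ha hb l hl
    rcases List.mem_append.1 ((FreeGroup.toWord_mul_sublist a b).subset hl) with h | h
    · exact ha l h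
    · exact hb l h
  one_mem' := by simp
  inv_mem' := by
    intro a ha l hl
    rw [FreeGroup.toWord_inv] at hl
    simp only [FreeGroup.invRev, List.mem_reverse, List.mem_map] at hl
    obtain ⟨l', hl', rfl⟩ := hl
    exact ha l' hl'

lemma mem_Supp {p : ι → Prop} {g : FreeGroup ι} : g ∈ Supp p ↔ ∀ l ∈ g.toWord, p l.1 := Iff.rfl

lemma of_mem_Supp {p : ι → Prop} {i : ι} (h : p i) : FreeGroup.of i ∈ Supp p := by
  intro l hl
  rw [FreeGroup.toWord_of, List.mem_singleton] at hl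
  subst hl; exact h

lemma Supp_mono {p q : ι → Prop} (h : ∀ i, p i → q i) : Supp p ≤ Supp q :=
  fun _ hg l hl => h _ (hg l hl)

/-- Elements whose reduced word starts with a letter satisfying `p`. -/
def Hd (p : ι → Prop) : Set (FreeGroup ι) := {g | ∃ l L, g.toWord = l :: L ∧ p l.1}

lemma one_notMem_Hd (p : ι → Prop) : (1 : FreeGroup ι) ∉ Hd p := by
  rintro ⟨l, L, h, -⟩
  simp at h

lemma notMem_Hd_of_Supp {p q : ι → Prop} (hpq : ∀ i, q i → ¬ p i) {g : FreeGroup ι}
    (hg : g ∈ Supp q) : g ∉ Hd p := by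
  rintro ⟨l, L, h, hl⟩
  exact hpq _ (hg l (by rw [h]; simp)) hl

lemma notMem_Hd_of_Hd {p q : ι → Prop} (hpq : ∀ i, q i → ¬ p i) {g : FreeGroup ι}
    (hg : g ∈ Hd q) : g ∉ Hd p := by
  rintro ⟨l, L, h, hl⟩
  obtain ⟨l', L', h', hl'⟩ := hg
  rw [h] at h'
  obtain ⟨rfl, -⟩ := List.cons.inj h'
  exact hpq _ hl' hl

/-- Ping-pong lemma. -/
lemma pingpong {p : ι → Prop} {h g : FreeGroup ι} (hh : h ∈ Supp p) (h1 : h ≠ 1)
    (hg : g ∉ Hd p) : h * g ∈ Hd p := by
  have hred : FreeGroup.IsReduced (h.toWord ++ g.toWord) := by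
    refine List.IsChain.append FreeGroup.isReduced_toWord FreeGroup.isReduced_toWord ?_
    intro a ha b hb hab
    exfalso
    apply hg
    have ha' : a ∈ h.toWord := List.mem_of_mem_getLast? ha
    obtain ⟨L, hL⟩ : ∃ L, g.toWord = b :: L := by
      cases hgw : g.toWord with
      | nil => rw [hgw] at hb; simp at hb
      | cons c L =>
        rw [hgw] at hb
        simp only [List.head?_cons, Option.mem_def, Option.some.injEq] at hb
        exact ⟨L, by rw [hb]⟩
    exact ⟨b, L, hL, hab ▸ hh a ha'⟩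
  have hw : (h * g).toWord = h.toWord ++ g.toWord := by
    conv_lhs => rw [← FreeGroup.mk_toWord (x := h), ← FreeGroup.mk_toWord (x := g)]
    rw [FreeGroup.mul_mk, FreeGroup.toWord_mk, hred.reduce_eq]
  cases hhw : h.toWord with
  | nil => exact absurd (FreeGroup.toWord_eq_nil_iff.mp hhw) h1
  | cons l L =>
    refine ⟨l, L ++ g.toWord, by rw [hw, hhw]; rfl, hh l (by rw [hhw]; simp)⟩

/-- The shift on `ℤ × ℤ`. -/
def shiftP : Equiv.Perm (ℤ × ℤ) where
  toFun x := (x.1 + 1, x.2)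
  invFun x := (x.1 - 1, x.2)
  left_inv x := by simp
  right_inv x := by simp

/-- The lamp at position `j`. -/
def lampP (j : ℤ) : Equiv.Perm (ℤ × ℤ) where
  toFun x := (x.1, x.2 + if x.1 = j then 1 else 0)
  invFun x := (x.1, x.2 - if x.1 = j then 1 else 0)
  left_inv x := by simp
  right_inv x := by simp

lemma shiftP_zpow (z : ℤ) (x : ℤ × ℤ) : (shiftP ^ z) x = (x.1 + z, x.2) := by
  induction z using Int.induction_on generalizing x with
  | zero => simp
  | succ n ih =>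
    rw [zpow_add_one, Equiv.Perm.mul_apply, ih]
    simp [shiftP]; ring
  | pred n ih =>
    rw [zpow_sub_one, Equiv.Perm.mul_apply, ih]
    have : shiftP⁻¹ x = (x.1 - 1, x.2) := rfl
    rw [this]; simp; ring

lemma shift_lamp (z : ℤ) : shiftP ^ z * lampP 0 * shiftP ^ (-z) = lampP z := by
  ext x
  · simp [Equiv.Perm.mul_apply, shiftP_zpow, lampP, -zpow_neg]
  · simp only [Equiv.Perm.mul_apply, shiftP_zpow, lampP, Equiv.coe_fn_mk]
    by_cases h : x.1 = z
    · simp [h]
    · have : ¬ x.1 + -z = 0 := by omega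
      simp [h, this]

/-- The conjugates `T_z = w^z (c w^{-n}) w^{-z}`. -/
def Tg (w c : ι) (n : ℕ) (z : ℤ) : FreeGroup ι :=
  FreeGroup.of w ^ z * (FreeGroup.of c * FreeGroup.of w ^ (-(n : ℤ))) * FreeGroup.of w ^ (-z)

omit [DecidableEq ι] in
lemma Tg_conj (w c : ι) (n : ℕ) (l z : ℤ) :
    FreeGroup.of w ^ l * Tg w c n z * (FreeGroup.of w ^ l)⁻¹ = Tg w c n (l + z) := by
  unfold Tg; group

omit [DecidableEq ι] in
lemma Tg_zero_inv (w c : ι) (n : ℕ) :
    (Tg w c n 0)⁻¹ = FreeGroup.of w ^ n * (FreeGroup.of c)⁻¹ := by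
  unfold Tg; group

/-- The lamplighter action. -/
def act (w c : ι) (n : ℕ) : FreeGroup ι →* Equiv.Perm (ℤ × ℤ) :=
  FreeGroup.lift (fun i => if i = w then shiftP else if i = c then lampP 0 * shiftP ^ (n : ℤ) else 1)

lemma act_Tg {w c : ι} (hwc : c ≠ w) (n : ℕ) (z : ℤ) : act w c n (Tg w c n z) = lampP z := by
  have hw : act w c n (FreeGroup.of w) = shiftP := by simp [act]
  have hc : act w c n (FreeGroup.of c) = lampP 0 * shiftP ^ (n : ℤ) := by simp [act, hwc]
  unfold Tg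
  rw [map_mul, map_mul, map_mul, map_zpow, map_zpow, map_zpow, hw, hc, ← shift_lamp z]
  group

lemma Tg_injective {w c : ι} (hwc : c ≠ w) (n : ℕ) : Function.Injective (Tg w c n) := by
  intro i j hij
  have h := congrArg (fun g => act w c n g (i, 0)) hij
  simp only [act_Tg hwc, lampP, Equiv.coe_fn_mk, if_true, Prod.mk.injEq, true_and] at h
  by_contra hne
  simp [hne] at h

lemma Tg_ne_one {w c : ι} (hwc : c ≠ w) (n : ℕ) (z : ℤ) : Tg w c n z ≠ 1 := by
  intro h
  have h := congrArg (fun g => act w c n g (z, 0)) h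
  simp [act_Tg hwc, lampP] at h

lemma Tg_sq_ne_one {w c : ι} (hwc : c ≠ w) (n : ℕ) (z : ℤ) :
    (Tg w c n z)⁻¹ * (Tg w c n z)⁻¹ ≠ 1 := by
  intro h
  have h' : Tg w c n z * Tg w c n z = 1 := by
    rw [← mul_inv_rev, inv_eq_one] at h; exact h
  have h := congrArg (fun g => act w c n g (z, 0)) h'
  simp [act_Tg hwc, lampP] at h

/-- The stabiliser of the origin. -/
def Stab (w c : ι) (n : ℕ) : Subgroup (FreeGroup ι) :=
  (MulAction.stabilizer (Equiv.Perm (ℤ × ℤ)) ((0, 0) : ℤ × ℤ)).comap (act w c n)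

lemma Tg_mem_Stab {w c : ι} (hwc : c ≠ w) (n : ℕ) {z : ℤ} (hz : z ≠ 0) :
    Tg w c n z ∈ Stab w c n := by
  simp [Stab, act_Tg hwc, lampP, hz.symm]

lemma Tg_zero_notMem_Stab {w c : ι} (hwc : c ≠ w) (n : ℕ) : Tg w c n 0 ∉ Stab w c n := by
  simp [Stab, act_Tg hwc, lampP]

/-- The grading with `deg w = 1`, `deg c = n`. -/
def deg (w c : ι) (n : ℕ) : FreeGroup ι →* Multiplicative ℤ :=
  FreeGroup.lift (fun i => Multiplicative.ofAdd (if i = w then 1 else if i = c then (n : ℤ) else 0))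

lemma deg_w (w c : ι) (n : ℕ) : deg w c n (FreeGroup.of w) = Multiplicative.ofAdd 1 := by
  simp [deg]

lemma deg_Tg {w c : ι} (hwc : c ≠ w) (n : ℕ) (z : ℤ) : deg w c n (Tg w c n z) = 1 := by
  have hc : deg w c n (FreeGroup.of c) = Multiplicative.ofAdd (n : ℤ) := by simp [deg, hwc]
  unfold Tg
  rw [map_mul, map_mul, map_mul, map_zpow, map_zpow, map_zpow, deg_w, hc]
  rw [← ofAdd_zsmul, ← ofAdd_zsmul, ← ofAdd_zsmul, ← ofAdd_add, ← ofAdd_add, ← ofAdd_add]
  simp

lemma Tg_mem_Supp {p : ι → Prop} {w c : ι} (hw : p w) (hc : p c) (n : ℕ) (z : ℤ) :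
    Tg w c n z ∈ Supp p := by
  unfold Tg
  exact mul_mem (mul_mem (zpow_mem (of_mem_Supp hw) _)
    (mul_mem (of_mem_Supp hc) (zpow_mem (of_mem_Supp hw) _))) (zpow_mem (of_mem_Supp hw) _)

end Crest.Agent.R95
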