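import Crest.Agent.R95.Cs
import Crest.Agent.R95.FreeGrp

/-! Recursive construction of free Haar families in prescribed cosets. -/

set_option autoImplicit false

open Crest.Agent.Lib.Tracial

noncomputable section

namespace Crest.Agent.R95

variable {B : Type*} [CStarAlgebra B] (τ : TrState B)

/-- The representation of the free group attached to a family of unitaries. -/
def rho (g : ℕ → unitary B) : FreeGroup ℕ →* unitary B := FreeGroup.lift g

@[simp] lemma rho_of (g : ℕ → unitary B) (i : ℕ) : rho g (FreeGroup.of i) = g i := by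
  simp [rho]

lemma rho_mk_cons (g : ℕ → unitary B) (l : ℕ × Bool) (L : List (ℕ × Bool)) :
    rho g (FreeGroup.mk (l :: L)) = (if l.2 then g l.1 else (g l.1)⁻¹) * rho g (FreeGroup.mk L) := by
  simp only [rho, FreeGroup.lift_mk, List.map_cons, List.prod_cons]
  cases l.2 <;> simp

lemma rho_congr {S : ℕ → Prop} {g g' : ℕ → unitary B} (h : ∀ i, S i → g i = g' i)
    {w : FreeGroup ℕ} (hw : w ∈ Supp S) : rho g w = rho g' w := by
  rw [← FreeGroup.mk_toWord (x := w)]
  simp only [rho, FreeGroup.lift_mk]
  congr 1
  refine List.map_congr_left fun l hl => ?_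
  rw [h _ (hw l hl)]

/-- Free Haar property on the letters in `S`. -/
def FHon (S : ℕ → Prop) (g : ℕ → unitary B) : Prop :=
  ∀ w ∈ Supp S, w ≠ 1 → τ (rho g w) = 0

lemma FHon.mk_eq_zero {τ : TrState B} {S : ℕ → Prop} {g : ℕ → unitary B} (h : FHon τ S g)
    {L : List (ℕ × Bool)} (hL : FreeGroup.IsReduced L) (hne : L ≠ []) (hS : ∀ l ∈ L, S l.1) :
    τ (rho g (FreeGroup.mk L)) = 0 := by
  have hw : (FreeGroup.mk L).toWord = L := by rw [FreeGroup.toWord_mk, hL.reduce_eq]
  refine h _ (fun l hl => hS l (hw ▸ hl)) fun h1 => hne ?_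
  rw [← hw, h1, FreeGroup.toWord_one]

lemma evw_mul_last (w : B) {X : Set B} {t : B} (hX : ∀ z ∈ X, z * t ∈ X) :
    ∀ W : List (Bool × B), W ≠ [] → (∀ p ∈ W, p.2 ∈ X) → RedW τ W →
      ∃ W' : List (Bool × B), W' ≠ [] ∧ (∀ p ∈ W', p.2 ∈ X) ∧ RedW τ W' ∧
        evw w W' = evw w W * t ∧ W'.head?.map Prod.fst = W.head?.map Prod.fst
  | [], h, _, _ => absurd rfl h
  | [p], _, hp, _ => ⟨[(p.1, p.2 * t)], by simp, by
      intro q hq
      rw [List.mem_singleton] at hq
      subst hq
      exact hX _ (hp p (by simp)), List.isChain_singleton _, by simp [evw, mul_assoc], by simp⟩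
  | p :: q :: W, _, hp, hr => by
      have hr' := List.isChain_cons_cons.mp hr
      obtain ⟨W', h1, h2, h3, h4, h5⟩ := evw_mul_last w hX (q :: W) (by simp)
        (fun r hr => hp r (List.mem_cons_of_mem _ hr)) hr'.2
      refine ⟨p :: W', by simp, ?_, ?_, ?_, by simp⟩
      · intro r hr
        rcases List.mem_cons.mp hr with rfl | hr
        · exact hp _ (by simp)
        · exact h2 r hr
      · cases W' with
        | nil => exact absurd rfl h1
        | cons q' W'' =>
          refine List.isChain_cons_cons.mpr ⟨?_, h3⟩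
          have : q'.1 = q.1 := by simpa using h5
          rw [this]; exact hr'.1
      · change _ * evw w W' = (_ * evw w (q :: W)) * t
        rw [h4, mul_assoc _ (evw w (q :: W))]

lemma split_word {n : ℕ} {g : ℕ → unitary B} (hg : FHon τ (· < n) g) (v : unitary B) :
    ∀ L : List (ℕ × Bool), FreeGroup.IsReduced L → (∀ l ∈ L, l.1 < n + 1) →
      ∃ (L0 : List (ℕ × Bool)) (W : List (Bool × B)), (∀ l ∈ L0, l.1 < n) ∧
        FreeGroup.IsReduced L0 ∧ (∀ p ∈ W, p.2 ∈ Set.range fun w => (rho g w : B)) ∧ RedW τ W ∧
        (rho (Function.update g n v) (FreeGroup.mk L) : B)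
          = rho g (FreeGroup.mk L0) * evw (v : B) W ∧
        (L0 = [] → ∀ p ∈ W.head?, L.head? = some (n, p.1)) ∧
        (L0 ≠ [] → L.head? = L0.head?) ∧ (W = [] → L0 = L)
  | [], _, _ => ⟨[], [], by simp, FreeGroup.IsReduced.nil, by simp, List.isChain_nil, by
      have : FreeGroup.mk ([] : List (ℕ × Bool)) = 1 := rfl
      simp [this, evw], by simp, by simp, by simp⟩
  | l :: L, hL, hn => by
      have hL' : FreeGroup.IsReduced L := hL.infix ⟨[l], [], by simp⟩
      obtain ⟨L0, W, h1, h2, h3, h4, h5, h6, h7, h8⟩ := split_word hg v L hL'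
        (fun l' hl' => hn l' (List.mem_cons_of_mem _ hl'))
      by_cases hl : l.1 < n
      · refine ⟨l :: L0, W, ?_, ?_, h3, h4, ?_, by simp, by simp, ?_⟩
        · intro l' hl'
          rcases List.mem_cons.mp hl' with rfl | hl'
          · exact hl
          · exact h1 l' hl'
        · cases L0 with
          | nil => exact FreeGroup.IsReduced.singleton
          | cons a L0 =>
            have h7' := h7 (by simp)
            cases L with
            | nil => simp at h7'
            | cons b L =>
              have : b = a := by simpa using h7'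
              subst this
              exact List.isChain_cons_cons.mpr ⟨(List.isChain_cons_cons.mp hL).1, h2⟩
        · rw [rho_mk_cons, rho_mk_cons, Function.update_of_ne hl.ne, Submonoid.coe_mul,
            Submonoid.coe_mul, h5, mul_assoc]
        · intro hW; rw [h8 hW]
      · have hln : l.1 = n := by have := hn l (by simp); omega
        refine ⟨[], (l.2, (rho g (FreeGroup.mk L0) : B)) :: W, by simp, FreeGroup.IsReduced.nil,
          ?_, ?_, ?_, ?_, by simp, by simp⟩
        · intro p hp
          rcases List.mem_cons.mp hp with rfl | hp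
          · exact ⟨_, rfl⟩
          · exact h3 p hp
        · cases W with
          | nil => exact List.isChain_singleton _
          | cons q W =>
            refine List.isChain_cons_cons.mpr ⟨fun hne => ?_, h4⟩
            by_cases hL0 : L0 = []
            · exfalso
              have h6' := h6 hL0 q (by simp)
              cases L with
              | nil => simp at h6'
              | cons b L =>
                have hb : b = (n, q.1) := by simpa using h6'
                have := (List.isChain_cons_cons.mp hL).1
                rw [hb] at this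
                exact hne (this hln)
            · exact hg.mk_eq_zero h2 hL0 h1
        · have : FreeGroup.mk ([] : List (ℕ × Bool)) = 1 := rfl
          rw [rho_mk_cons, hln, Function.update_self, Submonoid.coe_mul, h5, this, map_one]
          change _ = (1 : B) * ((if l.2 then (v : B) else star (v : B)) * _ * evw (v : B) W)
          rw [one_mul, mul_assoc]
          congr 1
          cases l.2
          · rfl
          · rfl
        · intro _ p hp
          simp only [List.head?_cons, Option.mem_def, Option.some.injEq] at hp ⊢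
          subst hp
          exact Prod.ext hln rfl

lemma FHon_extend {Q : Set B} (hQ : τ.FreeExt Q) {n : ℕ} {g : ℕ → unitary B}
    (hg : FHon τ (· < n) g) (y : unitary B) :
    ∃ v : unitary B, star (y : B) * v ∈ Q ∧ FHon τ (· < n + 1) (Function.update g n v) := by
  have hcount : (Set.range fun w : FreeGroup ℕ => (rho g w : B)).Countable := by
    have : Countable (FreeGroup ℕ) := FreeGroup.toWord_injective.countable
    exact Set.countable_range _
  obtain ⟨a, haQ, hau, ha⟩ := hQ y y.2 _ hcount
  refine ⟨y * ⟨a, hau⟩, ?_, ?_⟩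
  · change star (y : B) * ((y : B) * a) ∈ Q
    rw [← mul_assoc, (Unitary.mem_iff.mp y.2).1, one_mul]; exact haQ
  · intro w hw h1
    obtain ⟨L0, W, h1', h2, h3, h4, h5, -, -, h8⟩ := split_word τ hg (y * ⟨a, hau⟩) w.toWord
      FreeGroup.isReduced_toWord hw
    rw [FreeGroup.mk_toWord] at h5
    rw [h5]
    by_cases hW : W = []
    · rw [hW]
      change τ (_ * 1) = 0
      rw [mul_one]
      refine hg.mk_eq_zero h2 ?_ h1'
      rw [h8 hW]
      exact fun h => h1 (FreeGroup.toWord_eq_nil_iff.mp h)
    · obtain ⟨W', k1, k2, k3, k4, -⟩ := evw_mul_last τ ((y : B) * a)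
        (X := Set.range fun w : FreeGroup ℕ => (rho g w : B)) (t := rho g (FreeGroup.mk L0))
        (by
          rintro _ ⟨w', rfl⟩
          exact ⟨w' * FreeGroup.mk L0, rho_mul _ _ _⟩) W hW h3 h4
      rw [τ.tr_comm]
      change τ (evw ((y : B) * a) W * _) = 0
      rw [← k4]
      exact ha W' k1 k2 k3

/-- Free Haar families in recursively prescribed cosets of the unitary group of `Q`. -/
theorem exists_free_family {Q : Set B} (hQ : τ.FreeExt Q) (φ : ℕ → (ℕ → unitary B) → unitary B)
    (hφ : ∀ i g g', (∀ j < i, g j = g' j) → φ i g = φ i g') :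
    ∃ g : ℕ → unitary B, (∀ w, w ≠ 1 → τ (rho g w) = 0) ∧ ∀ i, star (φ i g : B) * g i ∈ Q := by
  have h0 : FHon τ (· < 0) (fun _ => (1 : unitary B)) := by
    intro w hw h1
    exfalso
    apply h1
    rw [← FreeGroup.toWord_eq_nil_iff]
    cases hL : w.toWord with
    | nil => rfl
    | cons l L => exact absurd (hw l (by rw [hL]; simp)) (Nat.not_lt_zero _)
  choose step hstep1 hstep2 using fun (n : ℕ) (g : {g : ℕ → unitary B // FHon τ (· < n) g}) =>
    FHon_extend τ hQ g.2 (φ n g.1)
  let G : (n : ℕ) → {g : ℕ → unitary B // FHon τ (· < n) g} := fun n =>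
    Nat.rec ⟨fun _ => 1, h0⟩ (fun n g => ⟨Function.update g.1 n (step n g), hstep2 n g⟩) n
  have hG : ∀ n, (G (n + 1)).1 = Function.update (G n).1 n (step n (G n)) := fun n => rfl
  have hstab : ∀ i n, i < n → (G n).1 i = (G (i + 1)).1 i := by
    intro i n hin
    induction n, hin using Nat.le_induction with
    | base => rfl
    | succ n hn ih => rw [hG, Function.update_of_ne (by omega), ih]
  refine ⟨fun i => (G (i + 1)).1 i, fun w h1 => ?_, fun i => ?_⟩
  · obtain ⟨n, hn⟩ : ∃ n, w ∈ Supp (· < n) := by
      refine ⟨(w.toWord.map Prod.fst).sum + 1, fun l hl => ?_⟩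
      have := List.single_le_sum (l := w.toWord.map Prod.fst) (fun _ _ => Nat.zero_le _) l.1
        (List.mem_map_of_mem hl)
      omega
    rw [rho_congr (g' := (G n).1) (fun i hi => (hstab i n hi).symm) hn]
    exact (G n).2 w hn h1
  · have h1 : φ i (fun i => (G (i + 1)).1 i) = φ i (G i).1 :=
      hφ i _ _ fun j hj => (hstab j i hj).symm
    rw [h1]
    change star (φ i (G i).1 : B) * ((G (i + 1)).1 i : B) ∈ Q
    rw [hG, Function.update_self]
    exact hstep1 i (G i)

end Crest.Agent.R95
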