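import Crest.Agent.Lib.Tracial.Iface
import Crest.Prelude.Def_VNFactor

/-! Bridge from concrete von Neumann algebras with a faithful tracial vector state to the abstract
`TrState` interface. -/

set_option autoImplicit false

open scoped ComplexConjugate InnerProductSpace Topology
open Filter Crest.Agent.Lib.Tracial

noncomputable section

namespace Crest.Agent.R95

variable {H : Type*} [NormedAddCommGroup H] [InnerProductSpace ℂ H] [CompleteSpace H]

instance vnClosed (M : VonNeumannAlgebra H) :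
    IsClosed (M.toStarSubalgebra : Set (H →L[ℂ] H)) := by
  rw [VonNeumannAlgebra.coe_toStarSubalgebra, ← M.centralizer_centralizer]
  exact Set.isClosed_centralizer _

example (M : VonNeumannAlgebra H) : CStarAlgebra M.toStarSubalgebra := inferInstance

/-- The Hilbert space of square summable sequences in `H`. -/
abbrev Amp (H : Type*) [NormedAddCommGroup H] := lp (fun _ : ℕ => H) 2

/-- The diagonal amplification of an operator. -/
def amp (x : H →L[ℂ] H) : Amp H →L[ℂ] Amp H :=
  lp.mapCLM 2 (fun _ => x) (norm_nonneg x) (fun _ => le_rfl)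

omit [CompleteSpace H] in
lemma amp_apply (x : H →L[ℂ] H) (η : Amp H) (n : ℕ) : amp x η n = x (η n) := rfl

omit [CompleteSpace H] in
lemma amp_mul (x y : H →L[ℂ] H) (η : Amp H) : amp (x * y) η = amp x (amp y η) := by
  ext n; rfl

omit [CompleteSpace H] in
lemma amp_one (η : Amp H) : amp (1 : H →L[ℂ] H) η = η := by
  ext n; rfl

omit [CompleteSpace H] in
lemma amp_add (x y : H →L[ℂ] H) (η : Amp H) : amp (x + y) η = amp x η + amp y η := by
  ext n; rfl

omit [CompleteSpace H] in
lemma amp_sub (x y : H →L[ℂ] H) (η : Amp H) : amp (x - y) η = amp x η - amp y η := by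
  ext n; rfl

omit [CompleteSpace H] in
lemma amp_smul (c : ℂ) (x : H →L[ℂ] H) (η : Amp H) : amp (c • x) η = c • amp x η := by
  ext n; rfl

omit [CompleteSpace H] in
lemma amp_single (x : H →L[ℂ] H) (j : ℕ) (v : H) :
    amp x (lp.single 2 j v) = lp.single 2 j (x v) := by
  ext n
  rw [amp_apply]
  by_cases h : n = j
  · subst h; rw [lp.single_apply_self, lp.single_apply_self]
  · rw [lp.single_apply_ne _ _ _ h, lp.single_apply_ne _ _ _ h, map_zero]

lemma inner_amp_star (x : H →L[ℂ] H) (η ζ : Amp H) :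
    ⟪η, amp (star x) ζ⟫_ℂ = ⟪amp x η, ζ⟫_ℂ := by
  rw [lp.inner_eq_tsum, lp.inner_eq_tsum]
  refine tsum_congr fun n => ?_
  rw [amp_apply, amp_apply, ContinuousLinearMap.star_eq_adjoint,
    ContinuousLinearMap.adjoint_inner_right]

omit [InnerProductSpace ℂ H] [CompleteSpace H] in
lemma norm_sq_Amp (η : Amp H) : ‖η‖ ^ 2 = ∑' n, ‖η n‖ ^ 2 := by
  have := lp.norm_rpow_eq_tsum (p := 2) (by norm_num) η
  simpa using this

/-- The vector sequence as an element of the amplified space. -/
def xiVec (ξ : ℕ → H) (h : HasSum (fun n => ‖ξ n‖ ^ 2) 1) : Amp H :=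
  ⟨ξ, memℓp_gen (by simpa using h.summable)⟩

omit [InnerProductSpace ℂ H] [CompleteSpace H] in
lemma xiVec_apply (ξ : ℕ → H) (h : HasSum (fun n => ‖ξ n‖ ^ 2) 1) (n : ℕ) :
    xiVec ξ h n = ξ n := rfl

omit [InnerProductSpace ℂ H] [CompleteSpace H] in
lemma norm_xiVec_sq (ξ : ℕ → H) (h : HasSum (fun n => ‖ξ n‖ ^ 2) 1) : ‖xiVec ξ h‖ ^ 2 = 1 := by
  rw [norm_sq_Amp]; exact h.tsum_eq

omit [CompleteSpace H] in
lemma vectorState_eq (ξ : ℕ → H) (h : HasSum (fun n => ‖ξ n‖ ^ 2) 1) (x : H →L[ℂ] H) :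
    Crest.OpAlg.vectorState ξ x = ⟪xiVec ξ h, amp x (xiVec ξ h)⟫_ℂ := by
  rw [lp.inner_eq_tsum]; rfl

omit [CompleteSpace H] in
lemma traceNormSq_eq (ξ : ℕ → H) (h : HasSum (fun n => ‖ξ n‖ ^ 2) 1) (x : H →L[ℂ] H) :
    Crest.OpAlg.traceNormSq ξ x = ‖amp x (xiVec ξ h)‖ ^ 2 := by
  rw [norm_sq_Amp]; rfl

/-- The tracial state on `M` given by a faithful tracial vector state. -/
def vnTr (M : VonNeumannAlgebra H) (ξ : ℕ → H)
    (hξ : Crest.OpAlg.IsFaithfulTracialVectorState M ξ) : TrState M.toStarSubalgebra where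
  lin :=
    { toFun := fun x => Crest.OpAlg.vectorState ξ (x : H →L[ℂ] H)
      map_add' := fun x y => by
        simp only [vectorState_eq ξ hξ.1]
        rw [AddMemClass.coe_add, amp_add, inner_add_right]
      map_smul' := fun c x => by
        simp only [vectorState_eq ξ hξ.1]
        rw [SetLike.val_smul, amp_smul, inner_smul_right]; rfl }
  map_one' := by
    change Crest.OpAlg.vectorState ξ (1 : H →L[ℂ] H) = 1
    rw [vectorState_eq ξ hξ.1, amp_one, inner_self_eq_norm_sq_to_K]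
    have := congrArg (fun r : ℝ => (r : ℂ)) (norm_xiVec_sq ξ hξ.1)
    simpa using this
  map_star' x := by
    change Crest.OpAlg.vectorState ξ (star (x : H →L[ℂ] H)) =
      conj (Crest.OpAlg.vectorState ξ (x : H →L[ℂ] H))
    rw [vectorState_eq ξ hξ.1, vectorState_eq ξ hξ.1, inner_amp_star, inner_conj_symm]
  pos' x := by
    change 0 ≤ (Crest.OpAlg.vectorState ξ (star (x : H →L[ℂ] H) * (x : H →L[ℂ] H))).re
    rw [vectorState_eq ξ hξ.1, amp_mul, inner_amp_star]
    exact inner_self_nonneg (𝕜 := ℂ)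
  comm' x y := hξ.2.1 x x.2 y y.2

section

variable {M : VonNeumannAlgebra H} {ξ : ℕ → H}
  {hξ : Crest.OpAlg.IsFaithfulTracialVectorState M ξ}

lemma vnTr_apply (x : M.toStarSubalgebra) :
    vnTr M ξ hξ x = Crest.OpAlg.vectorState ξ (x : H →L[ℂ] H) := rfl

lemma vnTr_n2_eq (x : M.toStarSubalgebra) :
    (vnTr M ξ hξ).n2 x = ‖amp (x : H →L[ℂ] H) (xiVec ξ hξ.1)‖ := by
  refine (sq_eq_sq₀ (TrState.n2_nonneg _ _) (norm_nonneg _)).mp ?_
  rw [TrState.n2_sq, vnTr_apply]
  change (Crest.OpAlg.vectorState ξ (star (x : H →L[ℂ] H) * (x : H →L[ℂ] H))).re = _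
  rw [vectorState_eq ξ hξ.1, amp_mul, inner_amp_star]
  exact inner_self_eq_norm_sq (𝕜 := ℂ) _

theorem vnTr_n2_sq (x : M.toStarSubalgebra) :
    (vnTr M ξ hξ).n2 x ^ 2 = Crest.OpAlg.traceNormSq ξ (x : H →L[ℂ] H) := by
  rw [vnTr_n2_eq, traceNormSq_eq ξ hξ.1]

lemma norm_apply_le_n2 (x : M.toStarSubalgebra) (n : ℕ) :
    ‖(x : H →L[ℂ] H) (ξ n)‖ ≤ (vnTr M ξ hξ).n2 x := by
  rw [vnTr_n2_eq]
  exact lp.norm_apply_le_norm (by norm_num) (amp (x : H →L[ℂ] H) (xiVec ξ hξ.1)) n

theorem vnTr_faithful : (vnTr M ξ hξ).Faithful := by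
  intro x hx
  refine Subtype.ext (hξ.2.2 x x.2 fun n => ?_)
  have := norm_apply_le_n2 (hξ := hξ) x n
  rw [hx] at this
  exact norm_le_zero_iff.mp this

end

/-- Strong limits stay in a von Neumann algebra. -/
lemma mem_of_strong (N : VonNeumannAlgebra H) {ι : Type*} {l : Filter ι} [l.NeBot]
    (x : ι → H →L[ℂ] H) (y : H →L[ℂ] H) (hx : ∀ i, x i ∈ N)
    (h : ∀ v, Tendsto (fun i => x i v) l (𝓝 (y v))) : y ∈ N := by
  rw [← N.commutant_commutant, VonNeumannAlgebra.mem_commutant_iff]
  intro g hg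
  ext v
  rw [VonNeumannAlgebra.mem_commutant_iff] at hg
  have h1 : Tendsto (fun i => g (x i v)) l (𝓝 (g (y v))) := (g.continuous.tendsto _).comp (h v)
  have h2 : (fun i => g (x i v)) = fun i => x i (g v) := by
    funext i
    exact (DFunLike.congr_fun (hg _ (hx i)) v).symm
  rw [h2] at h1
  exact tendsto_nhds_unique h1 (h (g v))

section

variable {M : VonNeumannAlgebra H} {ξ : ℕ → H}

/-- The vectors `ξ n` are jointly cyclic for the commutant. -/
lemma cyclic_commutant (hξ : Crest.OpAlg.IsFaithfulTracialVectorState M ξ)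
    (S : Submodule ℂ H) (hS : IsClosed (S : Set H))
    (hmem : ∀ T ∈ M.commutant, ∀ n, T (ξ n) ∈ S) : S = ⊤ := by
  let S0 : Submodule ℂ H := Submodule.span ℂ {v | ∃ T ∈ M.commutant, ∃ n, v = T (ξ n)}
  have hle : S0.topologicalClosure ≤ S := by
    refine Submodule.topologicalClosure_minimal _ ?_ hS
    rw [Submodule.span_le]
    rintro _ ⟨T, hT, n, rfl⟩
    exact hmem T hT n
  have hP : S0.topologicalClosure.starProjection ∈ M := by
    rw [VonNeumannAlgebra.IsStarProjection.mem_iff isStarProjection_starProjection]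
    intro y hy
    rw [Submodule.range_starProjection]
    refine Submodule.topologicalClosure_mem_invtSubmodule ?_
    rw [Module.End.mem_invtSubmodule_iff_map_le, Submodule.map_span_le]
    rintro _ ⟨T, hT, n, rfl⟩
    exact Submodule.subset_span ⟨y * T, mul_mem hy hT, n, rfl⟩
  have h0 : (1 : H →L[ℂ] H) - S0.topologicalClosure.starProjection = 0 := by
    refine hξ.2.2 _ (sub_mem (one_mem M) hP) fun n => ?_
    have : ξ n ∈ S0.topologicalClosure :=
      S0.le_topologicalClosure (Submodule.subset_span ⟨1, one_mem _, n, rfl⟩)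
    rw [sub_apply, Submodule.starProjection_eq_self_iff.mpr this]
    simp
  rw [eq_top_iff]
  intro v _
  apply hle
  rw [← Submodule.starProjection_eq_self_iff]
  have := DFunLike.congr_fun h0 v
  rw [sub_apply, zero_apply, sub_eq_zero] at this
  exact this.symm

/-- A norm-bounded family tending to zero in the 2-norm tends to zero strongly. -/
lemma strong_of_n2 (hξ : Crest.OpAlg.IsFaithfulTracialVectorState M ξ) {ι : Type*} {l : Filter ι}
    (a : ι → M.toStarSubalgebra) (C : ℝ) (hC : ∀ i, ‖a i‖ ≤ C)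
    (h : Tendsto (fun i => (vnTr M ξ hξ).n2 (a i)) l (𝓝 0)) (v : H) :
    Tendsto (fun i => (a i : H →L[ℂ] H) v) l (𝓝 0) := by
  let S : Submodule ℂ H :=
    { carrier := {v | Tendsto (fun i => (a i : H →L[ℂ] H) v) l (𝓝 0)}
      add_mem' := fun {v w} hv hw => by
        have := Tendsto.add hv hw
        simpa using this
      zero_mem' := by simpa using tendsto_const_nhds
      smul_mem' := fun c v hv => by
        have := Tendsto.const_smul hv c
        simpa using this }
  have hS : IsClosed (S : Set H) := by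
    refine isClosed_of_closure_subset fun v hv => ?_
    change Tendsto (fun i => (a i : H →L[ℂ] H) v) l (𝓝 0)
    rw [Metric.tendsto_nhds]
    intro ε hε
    have hpos : 0 < ε / (2 * (|C| + 1)) := by positivity
    obtain ⟨w, hw, hvw⟩ := Metric.mem_closure_iff.mp hv _ hpos
    have hw' : Tendsto (fun i => (a i : H →L[ℂ] H) w) l (𝓝 0) := hw
    filter_upwards [Metric.tendsto_nhds.mp hw' (ε / 2) (by positivity)] with i hi
    rw [dist_zero_right] at hi ⊢
    rw [dist_eq_norm] at hvw
    have h1 : ‖(a i : H →L[ℂ] H) (v - w)‖ ≤ (|C| + 1) * ‖v - w‖ := by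
      refine (a i : H →L[ℂ] H).le_of_opNorm_le ?_ _
      exact (hC i).trans ((le_abs_self C).trans (by linarith))
    have h2 : (|C| + 1) * ‖v - w‖ ≤ ε / 2 := by
      have : (|C| + 1) * ‖v - w‖ ≤ (|C| + 1) * (ε / (2 * (|C| + 1))) :=
        mul_le_mul_of_nonneg_left hvw.le (by positivity)
      refine this.trans (le_of_eq ?_)
      field_simp
    calc ‖(a i : H →L[ℂ] H) v‖ = ‖(a i : H →L[ℂ] H) (v - w) + (a i : H →L[ℂ] H) w‖ := by
          rw [← map_add, sub_add_cancel]
      _ ≤ ‖(a i : H →L[ℂ] H) (v - w)‖ + ‖(a i : H →L[ℂ] H) w‖ := norm_add_le _ _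
      _ < ε := by linarith
  have htop : S = ⊤ := by
    refine cyclic_commutant hξ S hS fun T hT n => ?_
    change Tendsto (fun i => (a i : H →L[ℂ] H) (T (ξ n))) l (𝓝 0)
    have h1 : Tendsto (fun i => (a i : H →L[ℂ] H) (ξ n)) l (𝓝 0) :=
      squeeze_zero_norm (fun i => norm_apply_le_n2 (hξ := hξ) (a i) n) h
    have h2 := (T.continuous.tendsto _).comp h1
    rw [map_zero] at h2
    refine h2.congr fun i => ?_
    rw [VonNeumannAlgebra.mem_commutant_iff] at hT
    exact (DFunLike.congr_fun (hT _ (a i).2) (ξ n)).symm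
  have : v ∈ S := htop ▸ Submodule.mem_top
  exact this

variable {hξ : Crest.OpAlg.IsFaithfulTracialVectorState M ξ}

theorem vnTr_wclosed (N : VonNeumannAlgebra H) :
    (vnTr M ξ hξ).WClosed {a : M.toStarSubalgebra | (a : H →L[ℂ] H) ∈ N} := by
  intro x C y hx hC h
  refine mem_of_strong N (l := atTop) (fun n => (x n : H →L[ℂ] H)) y hx fun v => ?_
  have := strong_of_n2 hξ (fun n => x n - y) (C + ‖y‖)
    (fun n => (norm_sub_le _ _).trans (by linarith [hC n])) h v
  rw [← tendsto_sub_nhds_zero_iff]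
  exact this

theorem vnTr_complete : (vnTr M ξ hξ).Complete := by
  intro x C hC hx
  have hC0 : 0 ≤ C := (norm_nonneg _).trans (hC 0)
  have hn2 : Tendsto (fun p : ℕ × ℕ => (vnTr M ξ hξ).n2 (x p.1 - x p.2)) atTop (𝓝 0) := by
    rw [Metric.tendsto_atTop]
    intro ε hε
    obtain ⟨N, hN⟩ := hx ε hε
    refine ⟨(N, N), fun p hp => ?_⟩
    rw [Real.dist_eq, sub_zero, abs_of_nonneg (TrState.n2_nonneg _ _)]
    exact hN _ hp.1 _ hp.2
  have hcau : ∀ v, CauchySeq (fun n => (x n : H →L[ℂ] H) v) := by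
    intro v
    have := strong_of_n2 hξ (fun p : ℕ × ℕ => x p.1 - x p.2) (C + C)
      (fun p => (norm_sub_le _ _).trans (add_le_add (hC _) (hC _))) hn2 v
    rw [cauchySeq_iff_tendsto_dist_atTop_0]
    refine (tendsto_zero_iff_norm_tendsto_zero.mp this).congr fun p => ?_
    rw [dist_eq_norm]; rfl
  choose f hf using fun v => cauchySeq_tendsto_of_complete (hcau v)
  have hfC : ∀ v, ‖f v‖ ≤ C * ‖v‖ := fun v =>
    le_of_tendsto' (hf v).norm fun n => (x n : H →L[ℂ] H).le_of_opNorm_le (hC n) v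
  let fl : H →ₗ[ℂ] H :=
    { toFun := f
      map_add' := fun v w => by
        refine tendsto_nhds_unique (hf (v + w)) ?_
        simpa using (hf v).add (hf w)
      map_smul' := fun c v => by
        refine tendsto_nhds_unique (hf (c • v)) ?_
        simpa using (hf v).const_smul c }
  let y : H →L[ℂ] H := fl.mkContinuous C hfC
  have hyM : y ∈ M := mem_of_strong M (l := atTop) (fun n => (x n : H →L[ℂ] H)) y
    (fun n => (x n).2) hf
  refine ⟨⟨y, hyM⟩, LinearMap.mkContinuous_norm_le fl hC0 hfC, ?_⟩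
  have hcau2 : CauchySeq (fun n => amp (x n : H →L[ℂ] H) (xiVec ξ hξ.1)) := by
    rw [cauchySeq_iff_tendsto_dist_atTop_0]
    refine hn2.congr fun p => ?_
    rw [vnTr_n2_eq, dist_eq_norm, ← amp_sub]; rfl
  have hlim : Tendsto (fun n => amp (x n : H →L[ℂ] H) (xiVec ξ hξ.1)) atTop
      (𝓝 (amp y (xiVec ξ hξ.1))) := by
    refine lp.tendsto_lp_of_tendsto_pi hcau2 ?_
    rw [tendsto_pi_nhds]
    intro n
    exact hf (ξ n)
  refine (tendsto_iff_norm_sub_tendsto_zero.mp hlim).congr fun n => ?_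
  rw [vnTr_n2_eq, ← amp_sub]; rfl

omit [CompleteSpace H] in
lemma separable_Amp [TopologicalSpace.SeparableSpace H] :
    TopologicalSpace.SeparableSpace (Amp H) := by
  rw [← TopologicalSpace.isSeparable_univ_iff]
  let s : Set (Amp H) := ⋃ j : ℕ, Set.range (fun v : H => (lp.single 2 j v : Amp H))
  have hs : TopologicalSpace.IsSeparable s :=
    TopologicalSpace.IsSeparable.iUnion fun j =>
      TopologicalSpace.isSeparable_range (lp.isometry_single (E := fun _ : ℕ => H) j).continuous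
  refine (hs.span (R := ℂ)).closure.mono fun η _ => ?_
  refine mem_closure_of_tendsto (lp.hasSum_single (by norm_num) η) (Eventually.of_forall fun t => ?_)
  refine Submodule.sum_mem _ fun j _ => Submodule.subset_span ?_
  exact Set.mem_iUnion.mpr ⟨j, η j, rfl⟩

theorem vnTr_separable [TopologicalSpace.SeparableSpace H] : (vnTr M ξ hξ).Separable := by
  have : TopologicalSpace.SeparableSpace (Amp H) := separable_Amp
  have : SecondCountableTopology (Amp H) := UniformSpace.secondCountable_of_separable _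
  let φ : (vnTr M ξ hξ).L2 → Amp H := fun a =>
    amp (((vnTr M ξ hξ).toL2.symm a : M.toStarSubalgebra) : H →L[ℂ] H) (xiVec ξ hξ.1)
  have hφ : Isometry φ := by
    refine Isometry.of_dist_eq fun a b => ?_
    rw [dist_eq_norm, dist_eq_norm]
    have := vnTr_n2_eq (hξ := hξ) ((vnTr M ξ hξ).toL2.symm (a - b))
    rw [TrState.n2, LinearEquiv.apply_symm_apply] at this
    rw [this, map_sub, AddSubgroupClass.coe_sub, amp_sub]
  have : SecondCountableTopology (vnTr M ξ hξ).L2 := hφ.isUniformInducing.isInducing.secondCountableTopology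
  have : Nonempty (vnTr M ξ hξ).L2 := ⟨0⟩
  refine ⟨fun n => (vnTr M ξ hξ).toL2.symm (TopologicalSpace.denseSeq _ n), fun y ε hε => ?_⟩
  obtain ⟨n, hn⟩ := (TopologicalSpace.denseRange_denseSeq (vnTr M ξ hξ).L2).exists_dist_lt
    ((vnTr M ξ hξ).toL2 y) hε
  refine ⟨n, ?_⟩
  rw [TrState.n2, map_sub, LinearEquiv.apply_symm_apply, ← dist_eq_norm]
  exact hn

end

section Resolvent

variable {A : Type*} [CStarAlgebra A]

lemma isUnit_one_sub_I_smul {b : A} (hb : IsSelfAdjoint b) : IsUnit (1 - Complex.I • b) := by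
  have h : -Complex.I ∉ spectrum ℂ b := by
    intro h
    have := hb.mem_spectrum_eq_re h
    simp at this
  rw [spectrum.notMem_iff] at h
  have h2 : (1 - Complex.I • b) = Complex.I • (algebraMap ℂ A (-Complex.I) - b) := by
    rw [smul_sub, Algebra.algebraMap_eq_smul_one, smul_smul]
    simp
  rw [h2]
  exact h.smul (Units.mk0 Complex.I Complex.I_ne_zero)

lemma norm_le_one_of_resolvent {b r : A} (hb : IsSelfAdjoint b)
    (h1 : (1 - Complex.I • b) * r = 1) : ‖r‖ ≤ 1 := by
  nontriviality A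
  let := CStarAlgebra.spectralOrder A
  have := CStarAlgebra.spectralOrderedRing A
  have h2 : star r * (1 + Complex.I • b) = 1 := by
    have := congrArg star h1
    rw [star_mul, star_one, star_sub, star_one, star_smul, hb.star_eq] at this
    simpa using this
  have h3 : star r * r + star (b * r) * (b * r) = 1 := by
    have h4 : (1 + Complex.I • b) * (1 - Complex.I • b) = 1 + b * b := by
      simp only [add_mul, mul_sub, mul_one, one_mul, smul_mul_assoc, mul_smul_comm, smul_smul,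
        smul_add, Complex.I_mul_I, neg_smul, one_smul]
      abel
    calc star r * r + star (b * r) * (b * r) = star r * (1 + b * b) * r := by
          rw [star_mul, hb.star_eq]; noncomm_ring
      _ = (star r * (1 + Complex.I • b)) * ((1 - Complex.I • b) * r) := by
          rw [← h4]; noncomm_ring
      _ = 1 := by rw [h1, h2, one_mul]
  have h5 : star r * r ≤ 1 := by
    rw [← h3]; exact le_add_of_nonneg_right (star_mul_self_nonneg _)
  have h6 : ‖star r * r‖ ≤ 1 :=
    (CStarAlgebra.norm_le_one_iff_of_nonneg _ (star_mul_self_nonneg r)).mpr h5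
  rw [CStarRing.norm_star_mul_self] at h6
  nlinarith [norm_nonneg r]

/-- A 2-norm dense, weakly closed, inverse closed star subalgebra is everything. -/
lemma eq_top_of_dense2 (τ : TrState A) (S : StarSubalgebra ℂ A) (hS : τ.WClosed S)
    (hinv : ∀ a r : A, a ∈ S → a * r = 1 → r * a = 1 → r ∈ S) (hd : τ.Dense2 S) : S = ⊤ := by
  have key : ∀ x : A, IsSelfAdjoint x → x ∈ S := by
    intro x hx
    have hb : ∀ n : ℕ, ∃ b ∈ S, IsSelfAdjoint b ∧ τ.n2 (x - b) < 1 / ((n : ℝ) + 1) := by
      intro n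
      obtain ⟨b, hbS, hb⟩ := hd x (1 / ((n : ℝ) + 1)) Nat.one_div_pos_of_nat
      refine ⟨(2 : ℂ)⁻¹ • (b + star b), S.smul_mem (add_mem hbS (star_mem hbS)) _, ?_, ?_⟩
      · rw [IsSelfAdjoint, star_smul, star_add, star_star, add_comm]
        simp
      · have h1 : x - (2 : ℂ)⁻¹ • (b + star b) = (2 : ℂ)⁻¹ • ((x - b) + star (x - b)) := by
          rw [star_sub, hx.star_eq]; module
        rw [h1, τ.n2_smul]
        have := τ.n2_add_le (x - b) (star (x - b))
        rw [τ.n2_star] at this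
        have h2 : ‖(2 : ℂ)⁻¹‖ = 2⁻¹ := by simp
        rw [h2]; linarith
    choose b hbS hbsa hb using hb
    choose r hr1 hr2 using fun n => (isUnit_one_sub_I_smul (hbsa n)).exists_right_inv.imp
      (fun r (h : (1 - Complex.I • b n) * r = 1) => And.intro h
        ((isUnit_one_sub_I_smul (hbsa n)).mul_left_cancel (b := r * (1 - Complex.I • b n)) (c := 1)
          (by rw [← mul_assoc, h, one_mul, mul_one])))
    obtain ⟨u, hu⟩ := isUnit_one_sub_I_smul hx
    have hu1 : (1 - Complex.I • x) * (↑u⁻¹ : A) = 1 := by rw [← hu, Units.mul_inv]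
    have hu2 : (↑u⁻¹ : A) * (1 - Complex.I • x) = 1 := by rw [← hu, Units.inv_mul]
    have hrS : ∀ n, r n ∈ S := fun n =>
      hinv _ _ (sub_mem (one_mem S) (S.smul_mem (hbS n) _)) (hr1 n) (hr2 n)
    have hlim : Tendsto (fun n => τ.n2 (r n - (↑u⁻¹ : A))) atTop (𝓝 0) := by
      refine squeeze_zero (fun n => τ.n2_nonneg _) (fun n => ?_) tendsto_one_div_add_atTop_nhds_zero_nat
      have h1 : r n - (↑u⁻¹ : A) = r n * ((-Complex.I) • (x - b n)) * (↑u⁻¹ : A) := by
        have : (-Complex.I) • (x - b n) = (1 - Complex.I • x) - (1 - Complex.I • b n) := by module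
        rw [this, mul_sub, sub_mul, mul_assoc, hu1, hr2, mul_one, one_mul]
      rw [h1]
      refine (τ.n2_mul_le_of_norm_le_one_right _ (norm_le_one_of_resolvent hx hu1)).trans ?_
      refine (τ.n2_mul_le_of_norm_le_one_left (norm_le_one_of_resolvent (hbsa n) (hr1 n)) _).trans ?_
      rw [τ.n2_smul]
      simpa using (hb n).le
    have hmem : (↑u⁻¹ : A) ∈ S :=
      hS r 1 _ hrS (fun n => norm_le_one_of_resolvent (hbsa n) (hr1 n)) hlim
    have h3 : 1 - Complex.I • x ∈ S := hinv _ _ hmem hu2 hu1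
    have h4 : x = Complex.I • ((1 - Complex.I • x) - 1) := by
      rw [sub_sub_cancel_left, smul_neg, smul_smul]; simp
    rw [h4]
    exact S.smul_mem (sub_mem h3 (one_mem S)) _
  rw [eq_top_iff]
  intro x _
  rw [← realPart_add_I_smul_imaginaryPart x]
  exact add_mem (key _ (realPart x).2) (S.smul_mem (key _ (imaginaryPart x).2) _)

end Resolvent

section

variable {M : VonNeumannAlgebra H} {ξ : ℕ → H}
  {hξ : Crest.OpAlg.IsFaithfulTracialVectorState M ξ}

lemma inv_mem_vn (N : VonNeumannAlgebra H) {a r : H →L[ℂ] H} (ha : a ∈ N) (h1 : a * r = 1)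
    (h2 : r * a = 1) : r ∈ N := by
  rw [← N.commutant_commutant, VonNeumannAlgebra.mem_commutant_iff]
  intro g hg
  rw [VonNeumannAlgebra.mem_commutant_iff] at hg
  calc g * r = r * a * g * r := by rw [h2, one_mul]
    _ = r * (g * a) * r := by rw [← hg a ha, mul_assoc r]
    _ = r * g := by rw [mul_assoc, mul_assoc, h1, mul_one]

theorem le_of_dense2 (N : VonNeumannAlgebra H)
    (h : (vnTr M ξ hξ).Dense2 {a : M.toStarSubalgebra | (a : H →L[ℂ] H) ∈ N}) : M ≤ N := by
  have := eq_top_of_dense2 (vnTr M ξ hξ) (N.toStarSubalgebra.comap M.toStarSubalgebra.subtype)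
    (vnTr_wclosed N) (fun a r ha h1 h2 => inv_mem_vn N (a := a) ha
      (congrArg Subtype.val h1) (congrArg Subtype.val h2)) h
  intro x hx
  have h2 : (⟨x, hx⟩ : M.toStarSubalgebra) ∈
      N.toStarSubalgebra.comap M.toStarSubalgebra.subtype := this ▸ StarSubalgebra.mem_top
  exact h2

/-- The commutant of a set of operators and their adjoints, as a von Neumann algebra. -/
def vnCommutant (s : Set (H →L[ℂ] H)) : VonNeumannAlgebra H where
  toStarSubalgebra := StarSubalgebra.centralizer ℂ s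
  centralizer_centralizer' := by
    change Set.centralizer (Set.centralizer (Set.centralizer (s ∪ star s))) =
      Set.centralizer (s ∪ star s)
    exact Set.centralizer_centralizer_centralizer _

lemma mem_vnCommutant {s : Set (H →L[ℂ] H)} {z : H →L[ℂ] H} :
    z ∈ vnCommutant s ↔ ∀ g ∈ s, g * z = z * g ∧ star g * z = z * star g :=
  StarSubalgebra.mem_centralizer_iff ℂ

theorem dense2_of_generates (B : StarSubalgebra ℂ M.toStarSubalgebra)
    (h : ∀ N : VonNeumannAlgebra H, (∀ b ∈ B, (b : H →L[ℂ] H) ∈ N) → M ≤ N) :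
    (vnTr M ξ hξ).Dense2 B := by
  classical
  let B' : VonNeumannAlgebra H := vnCommutant {z | ∃ b ∈ B, z = (b : H →L[ℂ] H)}
  have hM : M ≤ B'.commutant := by
    refine h _ fun b hb => ?_
    rw [VonNeumannAlgebra.mem_commutant_iff]
    intro g hg
    exact ((mem_vnCommutant.mp hg) _ ⟨b, hb, rfl⟩).1.symm
  let S0 : Submodule ℂ (Amp H) :=
    { carrier := {η | ∃ b ∈ B, η = amp (b : H →L[ℂ] H) (xiVec ξ hξ.1)}
      add_mem' := by
        rintro _ _ ⟨a, ha, rfl⟩ ⟨b, hb, rfl⟩
        exact ⟨a + b, add_mem ha hb, (amp_add _ _ _).symm⟩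
      zero_mem' := ⟨0, zero_mem _, by ext n; rfl⟩
      smul_mem' := by
        rintro c _ ⟨a, ha, rfl⟩
        exact ⟨c • a, B.smul_mem ha c, (amp_smul _ _ _).symm⟩ }
  let S := S0.topologicalClosure
  let P : Amp H →L[ℂ] Amp H := S.starProjection
  have hinv : ∀ b ∈ B, S ∈ Module.End.invtSubmodule (amp (b : H →L[ℂ] H)).toLinearMap := by
    intro b hb
    refine Submodule.topologicalClosure_mem_invtSubmodule ?_
    rw [Module.End.mem_invtSubmodule_iff_forall_mem_of_mem]
    rintro _ ⟨a, ha, rfl⟩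
    exact ⟨b * a, mul_mem hb ha, (amp_mul _ _ _).symm⟩
  have hcomm : ∀ b ∈ B, ∀ η, P (amp (b : H →L[ℂ] H) η) = amp (b : H →L[ℂ] H) (P η) := by
    intro b hb η
    refine Submodule.eq_starProjection_of_mem_of_inner_eq_zero ?_ fun w hw => ?_
    · exact (Module.End.mem_invtSubmodule_iff_forall_mem_of_mem _).mp (hinv b hb) _
        (S.starProjection_apply_mem η)
    · rw [← map_sub, ← inner_amp_star]
      refine Submodule.starProjection_inner_eq_zero η _ ?_
      exact (Module.End.mem_invtSubmodule_iff_forall_mem_of_mem _).mp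
        (hinv (star b) (star_mem hb)) _ hw
  have hent : ∀ i j : ℕ, (lp.evalCLM ℂ (fun _ : ℕ => H) 2 i).comp
      (P.comp (lp.singleContinuousLinearMap ℂ (fun _ : ℕ => H) 2 j)) ∈ B' := by
    intro i j
    have key : ∀ b ∈ B, (b : H →L[ℂ] H) * (lp.evalCLM ℂ (fun _ : ℕ => H) 2 i).comp
        (P.comp (lp.singleContinuousLinearMap ℂ (fun _ : ℕ => H) 2 j)) =
        (lp.evalCLM ℂ (fun _ : ℕ => H) 2 i).comp
        (P.comp (lp.singleContinuousLinearMap ℂ (fun _ : ℕ => H) 2 j)) * (b : H →L[ℂ] H) := by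
      intro b hb
      ext v
      change (b : H →L[ℂ] H) (P (lp.single 2 j v) i) = P (lp.single 2 j ((b : H →L[ℂ] H) v)) i
      rw [← amp_single, hcomm b hb, amp_apply]
    rw [mem_vnCommutant]
    rintro _ ⟨b, hb, rfl⟩
    exact ⟨key b hb, key (star b) (star_mem hb)⟩
  intro y ε hε
  have hy : (y : H →L[ℂ] H) ∈ B'.commutant := hM y.2
  rw [VonNeumannAlgebra.mem_commutant_iff] at hy
  have hPy : P.comp (amp (y : H →L[ℂ] H)) = (amp (y : H →L[ℂ] H)).comp P := by
    refine lp.ext_continuousLinearMap (by norm_num) fun j => ?_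
    ext v i
    change P (amp (y : H →L[ℂ] H) (lp.single 2 j v)) i = (y : H →L[ℂ] H) (P (lp.single 2 j v) i)
    rw [amp_single]
    exact DFunLike.congr_fun (hy _ (hent i j)) v
  have hxi : xiVec ξ hξ.1 ∈ S :=
    S0.le_topologicalClosure ⟨1, one_mem _, (amp_one _).symm⟩
  have hyS : amp (y : H →L[ℂ] H) (xiVec ξ hξ.1) ∈ S := by
    rw [← Submodule.starProjection_eq_self_iff]
    have h1 : P (amp (y : H →L[ℂ] H) (xiVec ξ hξ.1)) = amp (y : H →L[ℂ] H) (P (xiVec ξ hξ.1)) :=
      DFunLike.congr_fun hPy (xiVec ξ hξ.1)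
    have h2 : P (xiVec ξ hξ.1) = xiVec ξ hξ.1 := Submodule.starProjection_eq_self_iff.mpr hxi
    rw [h2] at h1
    exact h1
  obtain ⟨_, ⟨b, hb, rfl⟩, hd⟩ := Metric.mem_closure_iff.mp hyS ε hε
  refine ⟨b, hb, ?_⟩
  rw [vnTr_n2_eq, AddSubgroupClass.coe_sub, amp_sub, ← dist_eq_norm]
  exact hd

end

end Crest.Agent.R95

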