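import Crest.Agent.Lib.Tracial.Iface

/-! Closed spans of sets of group elements, and the Cayley transform. -/

set_option autoImplicit false

open Crest.Agent.Lib.Tracial
open scoped ComplexConjugate

noncomputable section

namespace Crest.Agent.R95

section cs

variable {B : Type*} [CStarAlgebra B] {G : Type*} [Group G] (ρ : G →* unitary B)

/-- Closed linear span of the image of a set of group elements. -/
def cs (T : Set G) : Submodule ℂ B :=
  (Submodule.span ℂ ((fun g => (ρ g : B)) '' T)).topologicalClosure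

lemma isClosed_cs (T : Set G) : IsClosed (cs ρ T : Set B) :=
  Submodule.isClosed_topologicalClosure _

lemma mem_cs {T : Set G} {g : G} (hg : g ∈ T) : (ρ g : B) ∈ cs ρ T :=
  Submodule.le_topologicalClosure _ (Submodule.subset_span ⟨g, hg, rfl⟩)

lemma cs_le {T : Set G} {S : Submodule ℂ B} (hS : IsClosed (S : Set B))
    (h : ∀ g ∈ T, (ρ g : B) ∈ S) : cs ρ T ≤ S := by
  refine Submodule.topologicalClosure_minimal _ (Submodule.span_le.mpr ?_) hS
  rintro _ ⟨g, hg, rfl⟩
  exact h g hg

lemma cs_mono {T T' : Set G} (h : T ⊆ T') : cs ρ T ≤ cs ρ T' :=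
  cs_le ρ (isClosed_cs ρ T') fun _ hg => mem_cs ρ (h hg)

lemma cs_map {T : Set G} {S : Submodule ℂ B} (hS : IsClosed (S : Set B)) (f : B →L[ℂ] B)
    (h : ∀ g ∈ T, f (ρ g : B) ∈ S) {x : B} (hx : x ∈ cs ρ T) : f x ∈ S :=
  cs_le ρ (S := S.comap (f : B →ₗ[ℂ] B)) (hS.preimage f.continuous) h hx

lemma cs_mul {T₁ T₂ T₃ : Set G} (h : ∀ a ∈ T₁, ∀ b ∈ T₂, a * b ∈ T₃) {x y : B}
    (hx : x ∈ cs ρ T₁) (hy : y ∈ cs ρ T₂) : x * y ∈ cs ρ T₃ := by
  refine cs_map ρ (isClosed_cs ρ T₃) (ContinuousLinearMap.mul ℂ B x) (fun b hb => ?_) hy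
  refine cs_map ρ (isClosed_cs ρ T₃) ((ContinuousLinearMap.mul ℂ B).flip (ρ b : B))
    (fun a ha => ?_) hx
  have := mem_cs ρ (h a ha b hb)
  rw [map_mul] at this
  exact this

lemma rho_inv (g : G) : (ρ g⁻¹ : B) = star (ρ g : B) := by
  rw [map_inv]; rfl

lemma rho_mul (g h : G) : (ρ (g * h) : B) = ρ g * ρ h := by
  rw [map_mul]; rfl

lemma rho_one : (ρ 1 : B) = 1 := by
  rw [map_one]; rfl

lemma cs_star {T₁ T₂ : Set G} (h : ∀ a ∈ T₁, a⁻¹ ∈ T₂) {x : B} (hx : x ∈ cs ρ T₁) :
    star x ∈ cs ρ T₂ := by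
  let S : Submodule ℂ B :=
    { carrier := {x | star x ∈ cs ρ T₂}
      add_mem' := fun ha hb => by
        simp only [Set.mem_setOf_eq, star_add] at *; exact add_mem ha hb
      zero_mem' := by simp
      smul_mem' := fun c x hx => by
        simp only [Set.mem_setOf_eq, star_smul] at *; exact Submodule.smul_mem _ _ hx }
  have hS : IsClosed (S : Set B) := (isClosed_cs ρ T₂).preimage continuous_star
  refine cs_le ρ hS (fun g hg => ?_) hx
  change star (ρ g : B) ∈ cs ρ T₂
  rw [← rho_inv]; exact mem_cs ρ (h g hg)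

/-- The closed span of a subgroup as a star subalgebra. -/
def csAlg (H : Subgroup G) : StarSubalgebra ℂ B where
  carrier := cs ρ H
  mul_mem' ha hb := cs_mul ρ (fun _ ha _ hb => H.mul_mem ha hb) ha hb
  add_mem' ha hb := add_mem ha hb
  algebraMap_mem' c := by
    rw [Algebra.algebraMap_eq_smul_one, ← rho_one ρ]
    exact Submodule.smul_mem _ _ (mem_cs ρ H.one_mem)
  star_mem' ha := cs_star ρ (fun _ ha => H.inv_mem ha) ha

lemma mem_csAlg {H : Subgroup G} {x : B} : x ∈ csAlg ρ H ↔ x ∈ cs ρ H := Iff.rfl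

variable {ρ} {τ : TrState B}

lemma cs_tr (hρ : ∀ g, g ≠ 1 → τ (ρ g) = 0) {T : Set G} (h1 : (1 : G) ∉ T) {x : B}
    (hx : x ∈ cs ρ T) : τ x = 0 := by
  have : cs ρ T ≤ LinearMap.ker (τ.clm : B →ₗ[ℂ] ℂ) :=
    cs_le ρ τ.clm.isClosed_ker fun g hg => hρ g (fun h => h1 (h ▸ hg))
  exact this hx

lemma cs_center (hρ : ∀ g, g ≠ 1 → τ (ρ g) = 0) {T : Set G} {x : B} (hx : x ∈ cs ρ T) :
    x - τ x • (1 : B) ∈ cs ρ (T \ {1}) := by
  refine cs_map ρ (isClosed_cs ρ _)
    (ContinuousLinearMap.id ℂ B - τ.clm.smulRight (1 : B)) (fun g hg => ?_) hx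
  change (ρ g : B) - τ (ρ g) • (1 : B) ∈ _
  by_cases h : g = 1
  · subst h
    rw [rho_one, τ.tr_one, one_smul, sub_self]; exact zero_mem _
  · rw [hρ g h, zero_smul, sub_zero]; exact mem_cs ρ ⟨hg, h⟩

lemma n2_sum_rho_sq (hρ : ∀ g, g ≠ 1 → τ (ρ g) = 0) {κ : Type*} (s : Finset κ) (f : κ → G)
    (hf : Set.InjOn f s) : τ.n2 (∑ i ∈ s, (ρ (f i) : B)) ^ 2 = s.card := by
  classical
  rw [τ.n2_sq, star_sum, Finset.sum_mul_sum, τ.tr_sum, Complex.re_sum]
  rw [Finset.card_eq_sum_ones, Nat.cast_sum]
  refine Finset.sum_congr rfl fun i hi => ?_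
  rw [τ.tr_sum, Finset.sum_eq_single i]
  · rw [← rho_inv, ← rho_mul, inv_mul_cancel, rho_one]; simp
  · intro j hj hji
    rw [← rho_inv, ← rho_mul]
    refine hρ _ fun h => hji ?_
    exact hf hj hi (inv_mul_eq_one.mp h).symm
  · intro h; exact absurd hi h

end cs

section cayley

variable {B : Type*} [CStarAlgebra B]

open Complex

/-- The resolvent `(1 - i y)⁻¹`. -/
def res (y : B) : B := Ring.inverse (1 - I • y)

/-- The Cayley transform `(1 + i y)(1 - i y)⁻¹`. -/
def cay (y : B) : B := (2 : ℂ) • res y - 1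

lemma isUnit_one_sub_I {y : B} (hy : star y = y) : IsUnit (1 - I • y) := by
  have hsa : IsSelfAdjoint y := hy
  have h : (-I) ∉ spectrum ℂ y := fun h => by
    have := hsa.im_eq_zero_of_mem_spectrum h
    simp at this
  rw [spectrum.notMem_iff] at h
  have h2 : (1 - I • y) = I • (algebraMap ℂ B (-I) - y) := by
    rw [Algebra.algebraMap_eq_smul_one, smul_sub, smul_smul]; simp
  rw [h2, Algebra.smul_def]
  exact ((IsUnit.mk0 I I_ne_zero).map (algebraMap ℂ B)).mul h

lemma res_mul {y : B} (hy : star y = y) : res y * (1 - I • y) = 1 :=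
  Ring.inverse_mul_cancel _ (isUnit_one_sub_I hy)

lemma mul_res {y : B} (hy : star y = y) : (1 - I • y) * res y = 1 :=
  Ring.mul_inverse_cancel _ (isUnit_one_sub_I hy)

lemma res_sub_one {y : B} (hy : star y = y) : res y - 1 = I • (y * res y) := by
  have := mul_res hy
  rw [sub_mul, one_mul, smul_mul_assoc] at this
  rw [← this]; abel

lemma res_sub_res {y y' : B} (hy : star y = y) (hy' : star y' = y') :
    res y - res y' = I • (res y * (y - y') * res y') := by
  have h1 := res_mul hy
  have h2 := mul_res hy'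
  calc res y - res y' = res y * ((1 - I • y') * res y') - (res y * (1 - I • y)) * res y' := by
        rw [h1, h2, mul_one, one_mul]
    _ = I • (res y * (y - y') * res y') := by
        simp only [mul_sub, sub_mul, mul_one, one_mul, smul_sub, mul_smul_comm, smul_mul_assoc,
          mul_assoc]
        abel

lemma star_res_mul_res {y : B} (hy : star y = y) :
    (2 : ℂ) • (star (res y) * res y) = res y + star (res y) := by
  have h1 := mul_res hy
  have h2 : star (res y) * (1 + I • y) = 1 := by
    have := congrArg star (mul_res hy)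
    rw [star_mul, star_sub, star_smul, hy, star_one] at this
    simpa using this
  calc (2 : ℂ) • (star (res y) * res y)
      = (star (res y) * (1 + I • y)) * res y + star (res y) * ((1 - I • y) * res y) := by
        simp only [mul_add, add_mul, mul_sub, sub_mul, mul_one, one_mul, mul_smul_comm,
          smul_mul_assoc, mul_assoc, two_smul]
        abel
    _ = _ := by rw [h1, h2, one_mul, mul_one]

lemma res_mul_star_res {y : B} (hy : star y = y) :
    (2 : ℂ) • (res y * star (res y)) = res y + star (res y) := by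
  have h1 := res_mul hy
  have h2 : (1 + I • y) * star (res y) = 1 := by
    have := congrArg star (res_mul hy)
    rw [star_mul, star_sub, star_smul, hy, star_one] at this
    simpa using this
  calc (2 : ℂ) • (res y * star (res y))
      = res y * ((1 + I • y) * star (res y)) + (res y * (1 - I • y)) * star (res y) := by
        simp only [mul_add, add_mul, mul_sub, sub_mul, mul_one, one_mul, mul_smul_comm,
          smul_mul_assoc, mul_assoc, two_smul]
        abel
    _ = _ := by rw [h1, h2, one_mul, mul_one]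

lemma cay_mem_unitary {y : B} (hy : star y = y) : cay y ∈ unitary B := by
  have h1 := star_res_mul_res hy
  have h2 := res_mul_star_res hy
  have hs : star (cay y) = (2 : ℂ) • star (res y) - 1 := by
    simp [cay, star_smul]
  rw [Unitary.mem_iff, hs, cay]
  constructor
  · have : ((2 : ℂ) • star (res y) - 1) * ((2 : ℂ) • res y - 1)
        = (2 : ℂ) • ((2 : ℂ) • (star (res y) * res y) - (res y + star (res y))) + 1 := by
      simp only [mul_sub, sub_mul, mul_one, one_mul, mul_smul_comm, smul_mul_assoc, smul_sub,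
        smul_add]
      abel
    rw [this, h1, sub_self, smul_zero, zero_add]
  · have : ((2 : ℂ) • res y - 1) * ((2 : ℂ) • star (res y) - 1)
        = (2 : ℂ) • ((2 : ℂ) • (res y * star (res y)) - (res y + star (res y))) + 1 := by
      simp only [mul_sub, sub_mul, mul_one, one_mul, mul_smul_comm, smul_mul_assoc, smul_sub,
        smul_add]
      abel
    rw [this, h2, sub_self, smul_zero, zero_add]

lemma norm_res_le (τ : TrState B) {y : B} (hy : star y = y) : ‖res y‖ ≤ 1 := by
  have h : res y = (2 : ℂ)⁻¹ • (cay y + 1) := by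
    rw [cay, sub_add_cancel, smul_smul]; simp
  rw [h, norm_smul]
  have := norm_add_le (cay y) 1
  rw [τ.norm_unitary (cay_mem_unitary hy), τ.norm_one_eq] at this
  simp only [norm_inv, Complex.norm_ofNat]
  linarith

lemma n2_res_sub_one (τ : TrState B) {y : B} (hy : star y = y) : τ.n2 (res y - 1) ≤ τ.n2 y := by
  rw [res_sub_one hy, τ.n2_smul, Complex.norm_I, one_mul]
  exact τ.n2_mul_le_of_norm_le_one_right _ (norm_res_le τ hy)

lemma cay_sub_one (y : B) : cay y - 1 = (2 : ℂ) • (res y - 1) := by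
  rw [cay, smul_sub, two_smul ℂ (1 : B)]; abel

lemma n2_cay_sub_one (τ : TrState B) {y : B} (hy : star y = y) :
    τ.n2 (cay y - 1) ≤ 2 * τ.n2 y := by
  rw [cay_sub_one, τ.n2_smul]
  have := n2_res_sub_one τ hy
  simp only [Complex.norm_ofNat]
  linarith

lemma norm_tr_cay_sub_one (τ : TrState B) {y : B} (hy : star y = y) (h0 : τ y = 0) :
    ‖τ (cay y) - 1‖ ≤ 2 * τ.n2 y ^ 2 := by
  have h1 : τ (cay y) - 1 = 2 * I * τ (y * (res y - 1)) := by
    rw [← τ.tr_one, ← τ.tr_sub, cay_sub_one, τ.tr_smul, res_sub_one hy, τ.tr_smul,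
      ← res_sub_one hy, mul_sub, τ.tr_sub, mul_one, h0]
    ring
  rw [h1, norm_mul, norm_mul, Complex.norm_I]
  have h2 := τ.norm_tr_mul_le y (res y - 1)
  have h3 := n2_res_sub_one τ hy
  have h4 := τ.n2_nonneg y
  simp only [Complex.norm_ofNat]
  nlinarith

lemma cay_sub_cay {y y' : B} (hy : star y = y) (hy' : star y' = y') :
    cay y - cay y' = (2 * I) • (res y * (y - y') * res y') := by
  rw [cay, cay, sub_sub_sub_cancel_right, ← smul_sub, res_sub_res hy hy', smul_smul]

lemma res_conj {u y : B} (hu : u ∈ unitary B) (hy : star y = y) :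
    u * res y * star u = res (u * y * star u) := by
  have hy' : star (u * y * star u) = u * y * star u := by simp [hy, mul_assoc]
  have h1 : (1 - I • (u * y * star u)) = u * (1 - I • y) * star u := by
    rw [mul_sub, sub_mul, mul_one, (Unitary.mem_iff.mp hu).2, mul_smul_comm, smul_mul_assoc]
  have h2 : u * res y * star u * (1 - I • (u * y * star u)) = 1 := by
    rw [h1]
    calc u * res y * star u * (u * (1 - I • y) * star u)
        = u * (res y * ((star u * u) * (1 - I • y))) * star u := by simp only [mul_assoc]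
      _ = 1 := by rw [(Unitary.mem_iff.mp hu).1, one_mul, res_mul hy, mul_one,
          (Unitary.mem_iff.mp hu).2]
  calc u * res y * star u
      = u * res y * star u * ((1 - I • (u * y * star u)) * res (u * y * star u)) := by
        rw [mul_res hy', mul_one]
    _ = res (u * y * star u) := by rw [← mul_assoc, h2, one_mul]

lemma cay_conj {u y : B} (hu : u ∈ unitary B) (hy : star y = y) :
    u * cay y * star u = cay (u * y * star u) := by
  rw [cay, cay, ← res_conj hu hy, mul_sub, sub_mul, mul_one, (Unitary.mem_iff.mp hu).2,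
    mul_smul_comm, smul_mul_assoc]

lemma res_mem {S : StarSubalgebra ℂ B} (hS : IsClosed (S : Set B)) {y : B} (hy : star y = y)
    (hyS : y ∈ S) : res y ∈ S := by
  have hm : (1 - I • y) ∈ S := sub_mem (one_mem _) (SMulMemClass.smul_mem _ hyS)
  have hu : IsUnit (⟨1 - I • y, hm⟩ : S) := by
    rw [← StarSubalgebra.coe_isUnit]; exact isUnit_one_sub_I hy
  obtain ⟨r, hr⟩ := hu.exists_left_inv
  have hr' : (r : B) * (1 - I • y) = 1 := congrArg Subtype.val hr
  have : res y = r := by
    calc res y = ((r : B) * (1 - I • y)) * res y := by rw [hr', one_mul]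
      _ = r := by rw [mul_assoc, mul_res hy, mul_one]
  rw [this]; exact r.2

lemma cay_mem {S : StarSubalgebra ℂ B} (hS : IsClosed (S : Set B)) {y : B} (hy : star y = y)
    (hyS : y ∈ S) : cay y ∈ S :=
  sub_mem (SMulMemClass.smul_mem _ (res_mem hS hy hyS)) (one_mem _)

end cayley

end Crest.Agent.R95
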