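import Crest.Agent.R95.Main
import Crest.Agent.Lib.Tracial.Popa
import Crest.Agent.Lib.Tracial.Ultra

/-! Generic unitaries generate: openness and the Baire argument. -/

set_option autoImplicit false

open Crest.Agent.Lib.Tracial Filter
open scoped Topology

noncomputable section

namespace Crest.Agent.R95

variable {A : Type*} [CStarAlgebra A] (τ : TrState A)

theorem approxGen_of_AV {τ : TrState A} {Q : StarSubalgebra ℂ A} (h : τ.AV (Q : Set A)) :
    τ.ApproxGen Q :=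
  TrState.approxGen_of_ultra (approxGen_of_freeExt h.approxFree.freeExt_ultra)

lemma adjoin_lip (Q : Set A) {u g : A} (hg : g ∈ StarAlgebra.adjoin ℂ (insert u Q)) :
    ∃ C : ℝ, 0 ≤ C ∧ ∀ v ∈ unitary A, ∃ g' ∈ StarAlgebra.adjoin ℂ (insert v Q),
      ‖g'‖ ≤ C ∧ τ.n2 (g - g') ≤ C * τ.n2 (u - v) := by
  induction hg using StarAlgebra.adjoin_induction with
  | mem x hx =>
    rcases hx with rfl | hx
    · exact ⟨1, zero_le_one, fun v hv => ⟨v, StarAlgebra.subset_adjoin ℂ _ (Set.mem_insert _ _),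
        (τ.norm_unitary hv).le, by rw [one_mul]⟩⟩
    · exact ⟨‖x‖, norm_nonneg _, fun v hv => ⟨x,
        StarAlgebra.subset_adjoin ℂ _ (Set.mem_insert_of_mem _ hx), le_rfl, by
          rw [sub_self, τ.n2_zero]; exact mul_nonneg (norm_nonneg _) (τ.n2_nonneg _)⟩⟩
  | algebraMap r =>
    exact ⟨‖algebraMap ℂ A r‖, norm_nonneg _, fun v hv => ⟨_, algebraMap_mem _ r, le_rfl, by
      rw [sub_self, τ.n2_zero]; exact mul_nonneg (norm_nonneg _) (τ.n2_nonneg _)⟩⟩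
  | add x y _ _ hx hy =>
    obtain ⟨C, hC, hx⟩ := hx
    obtain ⟨D, hD, hy⟩ := hy
    refine ⟨C + D, add_nonneg hC hD, fun v hv => ?_⟩
    obtain ⟨x', h1, h2, h3⟩ := hx v hv
    obtain ⟨y', h4, h5, h6⟩ := hy v hv
    refine ⟨x' + y', add_mem h1 h4, (norm_add_le _ _).trans (add_le_add h2 h5), ?_⟩
    rw [add_sub_add_comm, add_mul]
    exact (τ.n2_add_le _ _).trans (add_le_add h3 h6)
  | mul x y _ _ hx hy =>
    obtain ⟨C, hC, hx⟩ := hx
    obtain ⟨D, hD, hy⟩ := hy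
    refine ⟨C * D + ‖x‖ * D, by positivity, fun v hv => ?_⟩
    obtain ⟨x', h1, h2, h3⟩ := hx v hv
    obtain ⟨y', h4, h5, h6⟩ := hy v hv
    have hx0 := norm_nonneg x
    refine ⟨x' * y', mul_mem h1 h4, ?_, ?_⟩
    · refine (norm_mul_le _ _).trans ?_
      have := mul_le_mul h2 h5 (norm_nonneg _) hC
      nlinarith
    · have e : x * y - x' * y' = x * (y - y') + (x - x') * y' := by noncomm_ring
      rw [e]
      have k1 := τ.n2_mul_le_left x (y - y')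
      have k2 := τ.n2_mul_le_right (x - x') y'
      have k3 := τ.n2_add_le (x * (y - y')) ((x - x') * y')
      have k4 : ‖x‖ * τ.n2 (y - y') ≤ ‖x‖ * (D * τ.n2 (u - v)) := by gcongr
      have k5 : τ.n2 (x - x') * ‖y'‖ ≤ C * τ.n2 (u - v) * D :=
        mul_le_mul h3 h5 (norm_nonneg _) (mul_nonneg hC (τ.n2_nonneg _))
      nlinarith
  | star x _ hx =>
    obtain ⟨C, hC, hx⟩ := hx
    refine ⟨C, hC, fun v hv => ?_⟩
    obtain ⟨x', h1, h2, h3⟩ := hx v hv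
    exact ⟨star x', star_mem h1, by rwa [norm_star], by rwa [← star_sub, τ.n2_star]⟩

/-- The open sets of the Baire argument. -/
def Oset (Q : Set A) (x : A) (η : ℝ) : Set A :=
  {u | ∃ g ∈ StarAlgebra.adjoin ℂ (insert u Q), τ.n2 (x - g) < η}

lemma Oset_open (Q : Set A) (x : A) (η : ℝ) {u : A} (hu : u ∈ Oset τ Q x η) :
    ∃ δ : ℝ, 0 < δ ∧ ∀ v ∈ unitary A, τ.n2 (v - u) < δ → v ∈ Oset τ Q x η := by
  obtain ⟨g, hg, hlt⟩ := hu
  obtain ⟨C, hC, h⟩ := adjoin_lip τ Q hg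
  refine ⟨(η - τ.n2 (x - g)) / (C + 1), div_pos (by linarith) (by linarith), fun v hv hvu => ?_⟩
  obtain ⟨g', h1, -, h3⟩ := h v hv
  refine ⟨g', h1, ?_⟩
  have k1 := τ.n2_triangle x g g'
  rw [τ.n2_sub_rev u v] at h3
  rw [lt_div_iff₀ (by linarith)] at hvu
  have := τ.n2_nonneg (v - u)
  nlinarith

lemma exists_dense_unitaries (hS : τ.Separable) :
    ∃ x : ℕ → A, (∀ n, x n ∈ unitary A) ∧
      ∀ y ∈ unitary A, ∀ ε : ℝ, 0 < ε → ∃ n, τ.n2 (y - x n) < ε := by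
  classical
  obtain ⟨z, hz⟩ := hS
  have : ∀ n k : ℕ, ∃ x ∈ unitary A, (∃ y ∈ unitary A, τ.n2 (y - z n) < 1 / ((k : ℝ) + 1)) →
      τ.n2 (x - z n) < 1 / ((k : ℝ) + 1) := by
    intro n k
    by_cases h : ∃ y ∈ unitary A, τ.n2 (y - z n) < 1 / ((k : ℝ) + 1)
    · obtain ⟨y, hy, h⟩ := h
      exact ⟨y, hy, fun _ => h⟩
    · exact ⟨1, one_mem _, fun h' => absurd h' h⟩
  choose x hx hx' using this
  refine ⟨fun n => x n.unpair.1 n.unpair.2, fun n => hx _ _, fun y hy ε hε => ?_⟩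
  obtain ⟨k, hk⟩ := exists_nat_one_div_lt (half_pos hε)
  obtain ⟨n, hn⟩ := hz y (1 / ((k : ℝ) + 1)) (by positivity)
  refine ⟨Nat.pair n k, ?_⟩
  simp only [Nat.unpair_pair]
  have h1 := hx' n k ⟨y, hy, hn⟩
  have h2 := τ.n2_triangle y (z n) (x n k)
  rw [τ.n2_sub_rev (z n)] at h2
  linarith

lemma dense2_of_unitaries (S : StarSubalgebra ℂ A)
    (h : ∀ y ∈ unitary A, ∀ ε : ℝ, 0 < ε → ∃ b ∈ S, τ.n2 (y - b) < ε) : τ.Dense2 S := by
  intro a ε hε
  obtain ⟨u, c, rfl, -⟩ := CStarAlgebra.exists_sum_four_unitary a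
  set K : ℝ := ∑ i, ‖c i‖ with hK
  have hK0 : 0 ≤ K := Finset.sum_nonneg fun i _ => norm_nonneg _
  choose b hb hb' using fun i => h (u i) (u i).2 (ε / (K + 1)) (by positivity)
  refine ⟨∑ i, c i • b i, sum_mem fun i _ => SMulMemClass.smul_mem _ (hb i), ?_⟩
  rw [← Finset.sum_sub_distrib]
  refine (τ.n2_sum_le _ _).trans_lt ?_
  calc ∑ i, τ.n2 (c i • (u i : A) - c i • b i) ≤ ∑ i, ‖c i‖ * (ε / (K + 1)) := by
        refine Finset.sum_le_sum fun i _ => ?_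
        rw [← smul_sub, τ.n2_smul]
        exact mul_le_mul_of_nonneg_left (hb' i).le (norm_nonneg _)
    _ = K * (ε / (K + 1)) := by rw [← Finset.sum_mul]
    _ < ε := by
        rw [← mul_div_assoc, div_lt_iff₀ (by linarith)]; nlinarith

theorem exists_open_family (hS : τ.Separable) (Q : StarSubalgebra ℂ A) :
    ∃ O : ℕ → Set A,
      (∀ k, ∀ u ∈ O k, ∃ δ : ℝ, 0 < δ ∧ ∀ v ∈ unitary A, τ.n2 (v - u) < δ → v ∈ O k) ∧
      (∀ u, τ.Dense2 (StarAlgebra.adjoin ℂ (insert u (Q : Set A))) ↔ ∀ k, u ∈ O k) ∧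
      (τ.ApproxGen Q → ∀ k, ∀ u ∈ unitary A, ∀ ε : ℝ, 0 < ε →
        ∃ v ∈ unitary A, τ.n2 (v - u) < ε ∧ v ∈ O k) := by
  obtain ⟨x, hx, hx'⟩ := exists_dense_unitaries τ hS
  refine ⟨fun k => Oset τ Q (x k.unpair.1) (1 / ((k.unpair.2 : ℝ) + 1)),
    fun k u hu => Oset_open τ _ _ _ hu, fun u => ⟨fun h k => h _ _ (by positivity), fun h => ?_⟩,
    fun hQ k u hu ε hε => ?_⟩
  · refine dense2_of_unitaries τ _ fun y hy ε hε => ?_
    obtain ⟨n, hn⟩ := hx' y hy _ (half_pos hε)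
    obtain ⟨k, hk⟩ := exists_nat_one_div_lt (half_pos hε)
    obtain ⟨g, hg, hg'⟩ := h (Nat.pair n k)
    simp only [Nat.unpair_pair] at hg'
    exact ⟨g, hg, by linarith [τ.n2_triangle y (x n) g]⟩
  · obtain ⟨v, hv, h1, g, hg, h2⟩ := hQ u hu (x k.unpair.1) (hx _)
      (min ε (1 / ((k.unpair.2 : ℝ) + 1))) (lt_min hε (by positivity))
    exact ⟨v, hv, h1.trans_le (min_le_left _ _), g, hg, h2.trans_le (min_le_right _ _)⟩

lemma unitary_of_tendsto (hF : τ.Faithful) {u : ℕ → A} (hu : ∀ n, u n ∈ unitary A) {y : A}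
    (h : Tendsto (fun n => τ.n2 (u n - y)) atTop (𝓝 0)) : y ∈ unitary A := by
  have hlim : Tendsto (fun n => (1 + ‖y‖) * τ.n2 (u n - y)) atTop (𝓝 0) := by
    simpa using h.const_mul (1 + ‖y‖)
  rw [Unitary.mem_iff]
  constructor
  · refine sub_eq_zero.mp (hF _ (le_antisymm (ge_of_tendsto' hlim fun n => ?_) (τ.n2_nonneg _)))
    have e : star y * y - 1 = -(star (u n) * (u n - y) + star (u n - y) * y) := by
      rw [← (Unitary.mem_iff.mp (hu n)).1, star_sub]; noncomm_ring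
    rw [e, τ.n2_neg]
    have k1 := τ.n2_add_le (star (u n) * (u n - y)) (star (u n - y) * y)
    have k2 := τ.n2_mul_le_right (star (u n - y)) y
    rw [τ.n2_unitary_mul (Unitary.star_mem (hu n))] at k1
    rw [τ.n2_star] at k2
    linarith
  · refine sub_eq_zero.mp (hF _ (le_antisymm (ge_of_tendsto' hlim fun n => ?_) (τ.n2_nonneg _)))
    have e : y * star y - 1 = -((u n - y) * star (u n) + y * star (u n - y)) := by
      rw [← (Unitary.mem_iff.mp (hu n)).2, star_sub]; noncomm_ring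
    rw [e, τ.n2_neg]
    have k1 := τ.n2_add_le ((u n - y) * star (u n)) (y * star (u n - y))
    have k2 := τ.n2_mul_le_left y (star (u n - y))
    rw [τ.n2_mul_unitary _ (Unitary.star_mem (hu n))] at k1
    rw [τ.n2_star] at k2
    linarith

theorem generic_gen (hF : τ.Faithful) (hC : τ.Complete) (hS : τ.Separable)
    {Q : StarSubalgebra ℂ A} (hQ : τ.ApproxGen Q) {u : A} (hu : u ∈ unitary A) {ε : ℝ}
    (hε : 0 < ε) : ∃ v ∈ unitary A, τ.Dense2 (StarAlgebra.adjoin ℂ (insert v (Q : Set A))) ∧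
      τ.n2 (v - u) < ε := by
  obtain ⟨O, hO1, hO2, hO3⟩ := exists_open_family τ hS Q
  let U := {ξ : τ.L2 // τ.toL2.symm ξ ∈ unitary A}
  have hdist : ∀ a b : U, dist a b = τ.n2 (τ.toL2.symm a.1 - τ.toL2.symm b.1) := fun a b => by
    rw [Subtype.dist_eq, dist_eq_norm]; rfl
  have hcomp : CompleteSpace U := by
    refine Metric.complete_of_cauchySeq_tendsto fun a ha => ?_
    obtain ⟨y, -, hy⟩ := hC (fun n => τ.toL2.symm (a n).1) 1
      (fun n => (τ.norm_unitary (a n).2).le) (fun ε hε => by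
        obtain ⟨N, hN⟩ := Metric.cauchySeq_iff.mp ha ε hε
        exact ⟨N, fun m hm n hn => by rw [← hdist]; exact hN m hm n hn⟩)
    refine ⟨⟨τ.toL2 y, unitary_of_tendsto τ hF (fun n => (a n).2) hy⟩, ?_⟩
    rw [tendsto_iff_dist_tendsto_zero]
    simp only [hdist]
    exact hy
  have hdense : Dense (⋂ k, {a : U | τ.toL2.symm a.1 ∈ O k}) := by
    refine dense_iInter_of_isOpen (fun k => ?_) (fun k => ?_)
    · rw [Metric.isOpen_iff]
      intro a ha
      obtain ⟨δ, hδ, h⟩ := hO1 k _ ha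
      exact ⟨δ, hδ, fun b hb => h _ b.2 (by rw [← hdist]; exact hb)⟩
    · rw [Metric.dense_iff]
      intro a r hr
      obtain ⟨v, hv, h1, h2⟩ := hO3 hQ k _ a.2 r hr
      exact ⟨⟨τ.toL2 v, hv⟩, by rw [Metric.mem_ball, hdist]; exact h1, h2⟩
  obtain ⟨b, hb1, hb2⟩ := Metric.dense_iff.mp hdense ⟨τ.toL2 u, hu⟩ ε hε
  refine ⟨τ.toL2.symm b.1, b.2, (hO2 _).mpr (fun k => Set.mem_iInter.mp hb2 k), ?_⟩
  rw [Metric.mem_ball, hdist] at hb1
  exact hb1

end Crest.Agent.R95
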