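import Crest.Agent.R95.Cs
import Crest.Agent.R95.FreeGrp

/-! Trace computations in a free Haar family. -/

set_option autoImplicit false

open Crest.Agent.Lib.Tracial
open scoped ComplexConjugate

noncomputable section

namespace Crest.Agent.R95

section telescope

variable {B : Type*} [CStarAlgebra B] (τ : TrState B)

/-- Ordered product `a 0 * a 1 * ⋯ * a (n-1)`. -/
def prodv (a : ℕ → B) : ℕ → B
  | 0 => 1
  | n + 1 => prodv a n * a n

lemma prodv_unitary {a : ℕ → B} : ∀ n, (∀ l < n, a l ∈ unitary B) → prodv a n ∈ unitary B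
  | 0, _ => one_mem _
  | n + 1, h => mul_mem (prodv_unitary n fun l hl => h l (by omega)) (h n (by omega))

lemma prodv_mem {S : StarSubalgebra ℂ B} {a : ℕ → B} : ∀ n, (∀ l < n, a l ∈ S) → prodv a n ∈ S
  | 0, _ => one_mem _
  | n + 1, h => mul_mem (prodv_mem n fun l hl => h l (by omega)) (h n (by omega))

lemma n2_mul_sub_one (X : B) {Y : B} (hY : ‖Y‖ ≤ 1) :
    τ.n2 (X * Y - 1) ≤ τ.n2 (X - 1) + τ.n2 (Y - 1) := by
  have : X * Y - 1 = (X - 1) * Y + (Y - 1) := by noncomm_ring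
  rw [this]
  exact (τ.n2_add_le _ _).trans (add_le_add (τ.n2_mul_le_of_norm_le_one_right _ hY) le_rfl)

lemma n2_prodv_sub_one {a : ℕ → B} {μ : ℝ} : ∀ n, (∀ l < n, a l ∈ unitary B) →
    (∀ l < n, τ.n2 (a l - 1) ≤ μ) → τ.n2 (prodv a n - 1) ≤ n * μ
  | 0, _, _ => by simp [prodv]
  | n + 1, h, h' => by
      have h1 := n2_prodv_sub_one n (fun l hl => h l (by omega)) (fun l hl => h' l (by omega))
      have h2 := n2_mul_sub_one τ (prodv a n) (τ.norm_unitary (h n (by omega))).le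
      have h3 := h' n (by omega)
      rw [prodv]; push_cast; linarith

lemma pow_eq_prodv {v w : B} (hw : w ∈ unitary B) (n : ℕ) :
    (v * w) ^ n = prodv (fun l => w ^ l * v * star (w ^ l)) n * w ^ n := by
  induction n with
  | zero => simp [prodv]
  | succ n ih =>
    have h := (Unitary.mem_iff.mp (pow_mem hw n)).1
    rw [pow_succ, ih, prodv, pow_succ]
    simp only [mul_assoc]
    rw [← mul_assoc (star (w ^ n)), h, one_mul]

lemma norm_tr_sandwich {A A' Z G : B} (hA' : ‖A'‖ ≤ 1) (hZ : ‖Z‖ ≤ 2) (hG : ‖G‖ ≤ 1) :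
    ‖τ (A * Z * A' * G) - τ (Z * G)‖ ≤ 2 * (τ.n2 (A - 1) + τ.n2 (A' - 1)) := by
  have h1 : τ (A * Z * A' * G) - τ (Z * G) = τ ((A - 1) * (Z * A' * G)) + τ ((A' - 1) * (G * Z)) := by
    rw [← τ.tr_sub, ← mul_assoc (A' - 1), τ.tr_cyc (A' - 1), ← τ.tr_add]
    congr 1; noncomm_ring
  have h2 : τ.n2 (Z * A' * G) ≤ 2 := by
    refine (τ.n2_le_norm _).trans ?_
    calc ‖Z * A' * G‖ ≤ ‖Z‖ * ‖A'‖ * ‖G‖ :=
          (norm_mul_le _ _).trans (mul_le_mul_of_nonneg_right (norm_mul_le _ _) (norm_nonneg _))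
      _ ≤ 2 * 1 * 1 := by gcongr
      _ = 2 := by norm_num
  have h3 : τ.n2 (G * Z) ≤ 2 := by
    refine (τ.n2_le_norm _).trans ((norm_mul_le _ _).trans ?_)
    calc ‖G‖ * ‖Z‖ ≤ 1 * 2 := by gcongr
      _ = 2 := by norm_num
  rw [h1]
  have h4 := τ.norm_tr_mul_le (A - 1) (Z * A' * G)
  have h5 := τ.norm_tr_mul_le (A' - 1) (G * Z)
  have h6 := τ.n2_nonneg (A - 1)
  have h7 := τ.n2_nonneg (A' - 1)
  refine (norm_add_le _ _).trans ?_
  nlinarith

lemma telescope {a a' R R' : ℕ → B} {Z G : B} {cc : ℂ} {μ : ℝ} (hμ : 0 ≤ μ)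
    (hZ : ‖Z‖ ≤ 2) (hG : ‖G‖ ≤ 1) : ∀ n : ℕ,
    (∀ l < n, a l ∈ unitary B ∧ a' l ∈ unitary B ∧ τ.n2 (a l - 1) ≤ μ ∧ τ.n2 (a' l - 1) ≤ μ ∧
      ‖R l‖ ≤ 1 ∧ ‖R' l‖ ≤ 1 ∧ τ.n2 (R l - 1) ≤ μ ∧ τ.n2 (R' l - 1) ≤ μ ∧
      a l - a' l = cc • (R l * Z * R' l)) →
    ∀ L : B, ‖L‖ ≤ 1 → ‖τ ((prodv a n - prodv a' n) * L * G) - n * cc * τ (Z * G)‖
      ≤ n * ‖cc‖ * (2 * (τ.n2 (L - 1) + (n + 2) * μ))
  | 0, _, L, _ => by simp [prodv]
  | n + 1, h, L, hL => by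
      obtain ⟨h1, h2, h3, h4, h5, h6, h7, h8, h9⟩ := h n (by omega)
      have hn2 := τ.norm_unitary h2
      have hL' : ‖a' n * L‖ ≤ 1 := (norm_mul_le _ _).trans (by rw [hn2, one_mul]; exact hL)
      have ih := telescope hμ hZ hG n (fun l hl => h l (by omega)) (a' n * L) hL'
      have e1 : (prodv a (n + 1) - prodv a' (n + 1)) * L * G
          = (prodv a n - prodv a' n) * (a' n * L) * G
            + cc • ((prodv a n * R n) * Z * (R' n * L) * G) := by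
        have : prodv a (n + 1) - prodv a' (n + 1)
            = (prodv a n - prodv a' n) * a' n + prodv a n * (a n - a' n) := by
          rw [prodv, prodv]; noncomm_ring
        rw [this, h9]
        simp only [add_mul, mul_smul_comm, smul_mul_assoc, mul_assoc]
      have hRL : ‖R' n * L‖ ≤ 1 := (norm_mul_le _ _).trans (mul_le_one₀ h6 (norm_nonneg _) hL)
      have e2 := norm_tr_sandwich τ (A := prodv a n * R n) hRL hZ hG
      have e3 := n2_mul_sub_one τ (prodv a n) h5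
      have e4 := n2_prodv_sub_one τ n (fun l hl => (h l (by omega)).1)
        (fun l hl => (h l (by omega)).2.2.1)
      have e5 := n2_mul_sub_one τ (R' n) hL
      have e6 := n2_mul_sub_one τ (a' n) hL
      rw [e1, τ.tr_add, τ.tr_smul]
      have e7 : τ ((prodv a n - prodv a' n) * (a' n * L) * G)
            + cc * τ ((prodv a n * R n) * Z * (R' n * L) * G) - ((n + 1 : ℕ) : ℂ) * cc * τ (Z * G)
          = (τ ((prodv a n - prodv a' n) * (a' n * L) * G) - n * cc * τ (Z * G))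
            + cc * (τ ((prodv a n * R n) * Z * (R' n * L) * G) - τ (Z * G)) := by
        push_cast; ring
      rw [e7]
      refine (norm_add_le _ _).trans ?_
      rw [norm_mul]
      have hc := norm_nonneg cc
      have hn : (0 : ℝ) ≤ n := Nat.cast_nonneg n
      have f1 : (n : ℝ) * ‖cc‖ * (2 * (τ.n2 (a' n * L - 1) + (n + 2) * μ))
          ≤ n * ‖cc‖ * (2 * (τ.n2 (L - 1) + (n + 1 + 2) * μ)) := by
        gcongr ?_ * (2 * ?_)
        linarith
      have f2 : ‖cc‖ * ‖τ ((prodv a n * R n) * Z * (R' n * L) * G) - τ (Z * G)‖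
          ≤ ‖cc‖ * (2 * (τ.n2 (L - 1) + (n + 1 + 2) * μ)) := by
        gcongr ?_ * ?_
        nlinarith
      push_cast
      nlinarith

end telescope

section free

variable {B : Type*} [CStarAlgebra B] {τ : TrState B} {ι : Type*} [DecidableEq ι]
  {ρ : FreeGroup ι →* unitary B}

lemma tr_mul_factor (hρ : ∀ g, g ≠ 1 → τ (ρ g) = 0) {p q : ι → Prop} (hpq : ∀ i, q i → ¬ p i)
    {V W : B} (hV : V ∈ cs ρ (Supp p)) (hW : W ∈ cs ρ (Supp q)) : τ (V * W) = τ V * τ W := by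
  have h1 : (V - τ V • (1 : B)) * W ∈ cs ρ (Hd p) :=
    cs_mul ρ (fun a ha b hb => pingpong ha.1 ha.2 (notMem_Hd_of_Supp hpq hb))
      (cs_center hρ hV) hW
  have h2 := cs_tr hρ (one_notMem_Hd p) h1
  rw [sub_mul, τ.tr_sub, smul_mul_assoc, one_mul, τ.tr_smul] at h2
  exact sub_eq_zero.mp h2

lemma tr_pow_factor (hρ : ∀ g, g ≠ 1 → τ (ρ g) = 0) {p q : ι → Prop} (hpq : ∀ i, q i → ¬ p i)
    (d : FreeGroup ι →* Multiplicative ℤ) {V W Z : B} (hV : V ∈ cs ρ (Supp p))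
    (hW : W ∈ cs ρ {h | h ∈ Supp q ∧ d h = Multiplicative.ofAdd 1}) (hZ : Z ∈ cs ρ (Supp q))
    (n : ℕ) : τ ((V * W) ^ n * Z) = τ V ^ n * τ (W ^ n * Z) := by
  set B' : Set (FreeGroup ι) :=
    {x | ∃ h ∈ Supp q, 1 ≤ Multiplicative.toAdd (d h) ∧ ∃ g ∈ Hd p, x = h * g} with hB'
  have hqp : ∀ i, p i → ¬ q i := fun i hp hq => hpq i hq hp
  have hB'q : ∀ x ∈ B', x ∈ Hd q := by
    rintro _ ⟨h, hh, hd, g, hg, rfl⟩
    refine pingpong hh (fun h1 => ?_) (notMem_Hd_of_Hd hqp hg)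
    rw [h1, map_one] at hd
    simp at hd
  have hWq : W ∈ csAlg ρ (Supp q) := cs_mono ρ (fun h hh => hh.1) hW
  have hV0 := cs_center hρ hV
  have key : ∀ i : ℕ, (V * W) ^ i * Z - τ V ^ i • (W ^ i * Z) ∈ cs ρ (Hd p ∪ B') := by
    intro i
    induction i with
    | zero => simp
    | succ i ih =>
      set R := (V * W) ^ i * Z - τ V ^ i • (W ^ i * Z) with hR
      have hWR : W * R ∈ cs ρ B' := by
        refine cs_mul ρ ?_ hW ih
        rintro a ⟨ha, hda⟩ b (hb | ⟨h, hh, hd, g, hg, rfl⟩)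
        · exact ⟨a, ha, by rw [hda]; simp, b, hb, rfl⟩
        · refine ⟨a * h, mul_mem ha hh, ?_, g, hg, (mul_assoc _ _ _).symm⟩
          rw [map_mul, hda, toAdd_mul]; simp; omega
      have h1 : (V - τ V • (1 : B)) * (W ^ (i + 1) * Z) ∈ cs ρ (Hd p) :=
        cs_mul ρ (fun a ha b hb => pingpong ha.1 ha.2 (notMem_Hd_of_Supp hpq hb)) hV0
          (show W ^ (i + 1) * Z ∈ csAlg ρ (Supp q) from
            mul_mem (pow_mem hWq _) (show Z ∈ csAlg ρ (Supp q) from hZ))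
      have h2 : (V - τ V • (1 : B)) * (W * R) ∈ cs ρ (Hd p) :=
        cs_mul ρ (fun a ha b hb => pingpong ha.1 ha.2 (notMem_Hd_of_Hd hpq (hB'q b hb))) hV0 hWR
      have e : (V * W) ^ (i + 1) * Z - τ V ^ (i + 1) • (W ^ (i + 1) * Z)
          = τ V ^ i • ((V - τ V • (1 : B)) * (W ^ (i + 1) * Z)) + τ V • (W * R)
            + (V - τ V • (1 : B)) * (W * R) := by
        rw [hR, pow_succ' (V * W), pow_succ' W, pow_succ' (τ V)]
        simp only [sub_mul, mul_sub, smul_sub, smul_mul_assoc, mul_smul_comm, one_mul, mul_assoc,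
          smul_smul, mul_comm (τ V ^ i) (τ V)]
        abel
      rw [e]
      exact add_mem (add_mem (Submodule.smul_mem _ _ (cs_mono ρ Set.subset_union_left h1))
        (Submodule.smul_mem _ _ (cs_mono ρ Set.subset_union_right hWR)))
        (cs_mono ρ Set.subset_union_left h2)
  have h0 := cs_tr hρ (T := Hd p ∪ B') (by
    rintro (h | h)
    · exact one_notMem_Hd p h
    · exact one_notMem_Hd q (hB'q _ h)) (key n)
  rw [τ.tr_sub, τ.tr_smul] at h0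
  exact sub_eq_zero.mp h0

lemma tr_conj_orth (hρ : ∀ g, g ≠ 1 → τ (ρ g) = 0) {p : ι → Prop} {b b' : ι} (hb : ¬ p b)
    (hb' : ¬ p b') (hne : b ≠ b') {X X' : B} (hX : X ∈ cs ρ (Supp p \ {1}))
    (hX' : X' ∈ cs ρ (Supp p \ {1})) :
    τ (star (star (ρ (FreeGroup.of b) : B) * X * ρ (FreeGroup.of b)) *
      (star (ρ (FreeGroup.of b') : B) * X' * ρ (FreeGroup.of b'))) = 0 := by
  set β := FreeGroup.of b
  set β' := FreeGroup.of b'
  have hββ : β * β'⁻¹ ≠ 1 := fun h => hne (FreeGroup.of_injective (mul_inv_eq_one.mp h))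
  have hββ' : β' * β⁻¹ ≠ 1 := fun h => hne (FreeGroup.of_injective (mul_inv_eq_one.mp h)).symm
  have hs : β * β'⁻¹ ∈ Supp (fun i => ¬ p i) := mul_mem (of_mem_Supp hb) (inv_mem (of_mem_Supp hb'))
  have hs' : β' * β⁻¹ ∈ Supp (fun i => ¬ p i) :=
    mul_mem (of_mem_Supp hb') (inv_mem (of_mem_Supp hb))
  have e : τ (star (star (ρ β : B) * X * ρ β) * (star (ρ β' : B) * X' * ρ β'))
      = τ (star X * ((ρ (β * β'⁻¹) : B) * (X' * (ρ (β' * β⁻¹) : B)))) := by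
    rw [rho_mul, rho_mul, rho_inv, rho_inv, star_mul, star_mul, star_star, mul_assoc (star (ρ β : B)),
      τ.tr_comm (star (ρ β : B))]
    simp only [mul_assoc]
  rw [e]
  have h1 : (ρ (β' * β⁻¹) : B) ∈ cs ρ (Hd fun i => ¬ p i) := by
    refine mem_cs ρ ?_
    have := pingpong hs' hββ' (one_notMem_Hd _)
    rwa [mul_one] at this
  have h2 : X' * (ρ (β' * β⁻¹) : B) ∈ cs ρ (Hd p) :=
    cs_mul ρ (fun a ha b hb => pingpong ha.1 ha.2 (notMem_Hd_of_Hd (fun _ h => h) hb)) hX' h1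
  have h3 : (ρ (β * β'⁻¹) : B) * (X' * (ρ (β' * β⁻¹) : B)) ∈ cs ρ (Hd fun i => ¬ p i) :=
    cs_mul ρ (T₁ := {β * β'⁻¹}) (fun a ha b hb => by
      rw [Set.mem_singleton_iff.mp ha]
      exact pingpong hs hββ (notMem_Hd_of_Hd (fun _ h h' => h' h) hb)) (mem_cs ρ rfl) h2
  have h4 : star X ∈ cs ρ (Supp p \ {1}) :=
    cs_star ρ (T₁ := Supp p \ {1}) (T₂ := Supp p \ {1})
      (fun a ha => ⟨inv_mem ha.1, fun h => ha.2 (inv_eq_one.mp h)⟩) hX
  exact cs_tr hρ (one_notMem_Hd p)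
    (cs_mul ρ (fun a ha b hb => pingpong ha.1 ha.2 (notMem_Hd_of_Hd (fun _ h => h) hb)) h4 h3)

variable (ρ) in
/-- The self-adjoint perturbation direction. -/
def yv (w c : ι) (n : ℕ) (κ : ℝ) (s : Finset ℤ) : B :=
  (κ : ℂ) • (∑ z ∈ s, (ρ (Tg w c n z) : B) + star (∑ z ∈ s, (ρ (Tg w c n z) : B)))

omit [DecidableEq ι] in
lemma yv_sa (w c : ι) (n : ℕ) (κ : ℝ) (s : Finset ℤ) :
    star (yv ρ w c n κ s) = yv ρ w c n κ s := by
  rw [yv, star_smul, star_add, star_star, add_comm]; simp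

lemma n2_yv_le (hρ : ∀ g, g ≠ 1 → τ (ρ g) = 0) {w c : ι} (hwc : c ≠ w) (n : ℕ) {κ : ℝ}
    (hκ : 0 ≤ κ) (s : Finset ℤ) {r : ℝ} (hr : 0 ≤ r) (hs : (s.card : ℝ) ≤ r ^ 2) :
    τ.n2 (yv ρ w c n κ s) ≤ 2 * κ * r := by
  have h1 := n2_sum_rho_sq hρ s (Tg w c n) (Tg_injective hwc n).injOn
  have h2 : τ.n2 (∑ z ∈ s, (ρ (Tg w c n z) : B)) ≤ r :=
    (sq_le_sq₀ (τ.n2_nonneg _) hr).mp (h1 ▸ hs)
  rw [yv, τ.n2_smul, Complex.norm_real, Real.norm_eq_abs, abs_of_nonneg hκ]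
  have h3 := τ.n2_add_le (∑ z ∈ s, (ρ (Tg w c n z) : B)) (star (∑ z ∈ s, (ρ (Tg w c n z) : B)))
  rw [τ.n2_star] at h3
  nlinarith

lemma tr_yv (hρ : ∀ g, g ≠ 1 → τ (ρ g) = 0) {w c : ι} (hwc : c ≠ w) (n : ℕ) (κ : ℝ)
    (s : Finset ℤ) : τ (yv ρ w c n κ s) = 0 := by
  have h : τ (∑ z ∈ s, (ρ (Tg w c n z) : B)) = 0 := by
    rw [τ.tr_sum]; exact Finset.sum_eq_zero fun z _ => hρ _ (Tg_ne_one hwc n z)
  rw [yv, τ.tr_smul, τ.tr_add, τ.tr_star, h]; simp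

omit [DecidableEq ι] in
lemma yv_mem {w c : ι} {n : ℕ} (κ : ℝ) {s : Finset ℤ} {H : Subgroup (FreeGroup ι)}
    (h : ∀ z ∈ s, Tg w c n z ∈ H) : yv ρ w c n κ s ∈ csAlg ρ H := by
  have : ∑ z ∈ s, (ρ (Tg w c n z) : B) ∈ csAlg ρ H := sum_mem fun z hz => mem_cs ρ (h z hz)
  exact SMulMemClass.smul_mem _ (add_mem this (star_mem this))

omit [DecidableEq ι] in
lemma yv_conj (w c : ι) (n : ℕ) (κ : ℝ) (l : ℕ) :
    (ρ (FreeGroup.of w) : B) ^ l * yv ρ w c n κ (Finset.Ioc (-(n : ℤ)) 0) *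
      star ((ρ (FreeGroup.of w) : B) ^ l) = yv ρ w c n κ (Finset.Ioc ((l : ℤ) + -(n : ℤ)) l) := by
  have hp : (ρ (FreeGroup.of w) : B) ^ l = ρ (FreeGroup.of w ^ (l : ℤ)) := by
    rw [zpow_natCast, map_pow]; rfl
  have h1 : (ρ (FreeGroup.of w) : B) ^ l * (∑ z ∈ Finset.Ioc (-(n : ℤ)) 0, (ρ (Tg w c n z) : B)) *
      star ((ρ (FreeGroup.of w) : B) ^ l)
      = ∑ z ∈ Finset.Ioc ((l : ℤ) + -(n : ℤ)) l, (ρ (Tg w c n z) : B) := by
    have : Finset.Ioc ((l : ℤ) + -(n : ℤ)) l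
        = (Finset.Ioc (-(n : ℤ)) 0).map (addLeftEmbedding (l : ℤ)) := by
      rw [Finset.map_add_left_Ioc, add_zero]
    rw [this, Finset.sum_map, Finset.mul_sum, Finset.sum_mul]
    refine Finset.sum_congr rfl fun z _ => ?_
    rw [hp, ← rho_inv, ← rho_mul, ← rho_mul, Tg_conj]; rfl
  rw [yv, yv, ← h1]
  simp only [mul_smul_comm, smul_mul_assoc, mul_add, add_mul, star_mul, star_star, mul_assoc]

omit [DecidableEq ι] in
lemma yv_sub_erase (w c : ι) (n : ℕ) (κ : ℝ) {s : Finset ℤ} (h : (0 : ℤ) ∈ s) :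
    yv ρ w c n κ s - yv ρ w c n κ (s.erase 0)
      = (κ : ℂ) • ((ρ (Tg w c n 0) : B) + star (ρ (Tg w c n 0) : B)) := by
  rw [yv, yv, ← Finset.add_sum_erase s _ h, star_add, ← smul_sub]
  congr 1; abel

/-- The signal estimate. -/
theorem signal (hρ : ∀ g, g ≠ 1 → τ (ρ g) = 0) {w c : ι} (hwc : c ≠ w) {n : ℕ} (hn : 1 ≤ n)
    {r : ℝ} (hr : 0 < r) (hrn : r ^ 2 = n) :
    1 / (48 * r) ≤ ‖τ ((cay (yv ρ w c n (1 / (48 * r ^ 3)) (Finset.Ioc (-(n : ℤ)) 0)) *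
      ρ (FreeGroup.of w)) ^ n * star (ρ (FreeGroup.of c) : B))‖ := by
  set κ : ℝ := 1 / (48 * r ^ 3) with hκ
  have hκ0 : 0 ≤ κ := by positivity
  have hn' : (1 : ℝ) ≤ n := by exact_mod_cast hn
  set T0 : B := ((ρ (Tg w c n 0) : unitary B) : B) with hT0
  have hT0u : T0 ∈ unitary B := (ρ (Tg w c n 0)).2
  let y : ℕ → B := fun l => yv ρ w c n κ (Finset.Ioc ((l : ℤ) + -(n : ℤ)) l)
  let y' : ℕ → B := fun l => yv ρ w c n κ ((Finset.Ioc ((l : ℤ) + -(n : ℤ)) l).erase 0)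
  have hcard : ∀ l : ℕ, ((Finset.Ioc ((l : ℤ) + -(n : ℤ)) l).card : ℝ) ≤ r ^ 2 := by
    intro l; rw [hrn]; simp
  have hy : ∀ l, τ.n2 (y l) ≤ 2 * κ * r := fun l => n2_yv_le hρ hwc n hκ0 _ hr.le (hcard l)
  have hy' : ∀ l, τ.n2 (y' l) ≤ 2 * κ * r := fun l => n2_yv_le hρ hwc n hκ0 _ hr.le
    (le_trans (by exact_mod_cast Finset.card_erase_le) (hcard l))
  have e1 : (cay (yv ρ w c n κ (Finset.Ioc (-(n : ℤ)) 0)) * ρ (FreeGroup.of w)) ^ n *
      star (ρ (FreeGroup.of c) : B) = prodv (fun l => cay (y l)) n * star T0 := by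
    rw [pow_eq_prodv (ρ (FreeGroup.of w)).2, hT0, ← rho_inv, ← rho_inv, Tg_zero_inv, rho_mul,
      map_pow, mul_assoc]
    congr 2
    funext l
    rw [cay_conj (pow_mem (ρ (FreeGroup.of w)).2 l) (yv_sa _ _ _ _ _), yv_conj]
  have e2 : τ (prodv (fun l => cay (y' l)) n * star T0) = 0 := by
    have h1 : prodv (fun l => cay (y' l)) n ∈ csAlg ρ (Stab w c n) :=
      prodv_mem n fun l _ => cay_mem (isClosed_cs ρ _) (yv_sa _ _ _ _ _)
        (yv_mem κ fun z hz => Tg_mem_Stab hwc n (Finset.ne_of_mem_erase hz))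
    rw [hT0, ← rho_inv]
    refine cs_tr hρ (T := {g | g * Tg w c n 0 ∈ Stab w c n}) ?_
      (cs_mul ρ (T₂ := {(Tg w c n 0)⁻¹}) ?_ h1 (mem_cs ρ rfl))
    · simpa using Tg_zero_notMem_Stab hwc n
    · intro a ha b hb
      rw [Set.mem_singleton_iff.mp hb]
      simpa using ha
  have e3 : τ ((T0 + star T0) * star T0) = 1 := by
    rw [add_mul, τ.tr_add, (Unitary.mem_iff.mp hT0u).2, τ.tr_one, hT0, ← rho_inv, ← rho_mul,
      hρ _ (Tg_sq_ne_one hwc n 0), add_zero]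
  have hZ : ‖T0 + star T0‖ ≤ 2 := by
    have := norm_add_le T0 (star T0)
    rw [norm_star, τ.norm_unitary hT0u] at this
    linarith
  have tl := telescope τ (a := fun l => cay (y l)) (a' := fun l => cay (y' l))
    (R := fun l => res (y l)) (R' := fun l => res (y' l)) (Z := T0 + star T0) (G := star T0)
    (cc := 2 * Complex.I * κ) (μ := 4 * κ * r) (by positivity) hZ
    (by rw [norm_star, τ.norm_unitary hT0u]) n (fun l hl => by
      have s1 : star (y l) = y l := yv_sa _ _ _ _ _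
      have s2 : star (y' l) = y' l := yv_sa _ _ _ _ _
      have p1 := hy l
      have p2 := hy' l
      have p3 : 0 ≤ κ * r := by positivity
      refine ⟨cay_mem_unitary s1, cay_mem_unitary s2, ?_, ?_, norm_res_le τ s1, norm_res_le τ s2,
        ?_, ?_, ?_⟩
      · have := n2_cay_sub_one τ s1; linarith
      · have := n2_cay_sub_one τ s2; linarith
      · have := n2_res_sub_one τ s1; linarith
      · have := n2_res_sub_one τ s2; linarith
      · rw [cay_sub_cay s1 s2, yv_sub_erase w c n κ (by simp; omega), mul_smul_comm,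
          smul_mul_assoc, smul_smul]) 1 τ.norm_one_eq.le
  rw [mul_one, sub_mul, τ.tr_sub, e2, sub_zero, e3, mul_one, sub_self, τ.n2_zero, zero_add] at tl
  rw [e1]
  have hcc : ‖2 * Complex.I * (κ : ℂ)‖ = 2 * κ := by
    simp [abs_of_nonneg hκ0]
  have hmain : ‖(n : ℂ) * (2 * Complex.I * (κ : ℂ))‖ = n * (2 * κ) := by
    rw [norm_mul, hcc]; simp
  rw [hcc] at tl
  have h3 := norm_sub_norm_le ((n : ℂ) * (2 * Complex.I * (κ : ℂ)))
    (τ (prodv (fun l => cay (y l)) n * star T0))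
  rw [hmain, norm_sub_rev] at h3
  have h4 : (n : ℝ) * (2 * κ) = 1 / (24 * r) := by
    rw [hκ, ← hrn]; field_simp; norm_num
  have h5 : 2 * ((n + 2) * (4 * κ * r)) ≤ 1 / 2 := by
    have : 4 * κ * r = 1 / (12 * n) := by rw [hκ, ← hrn]; field_simp; norm_num
    rw [this, mul_one_div, ← mul_div_assoc, div_le_div_iff₀ (by positivity) (by norm_num)]
    linarith
  have h6 : 1 / (48 * r) = 1 / (24 * r) * (1 / 2) := by field_simp; norm_num
  rw [h4] at tl h3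
  have h7 : 0 ≤ 1 / (24 * r) := by positivity
  nlinarith

end free

end Crest.Agent.R95
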