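import Crest.Agent.R95.Build
import Crest.Agent.R95.Signal

/-! The key construction: exact free extensions give approximate relative generation. -/

set_option autoImplicit false

open Crest.Agent.Lib.Tracial
open scoped ComplexConjugate

noncomputable section

namespace Crest.Agent.R95

variable {B : Type*} [CStarAlgebra B] {τ : TrState B}

lemma n2_sum_orth_sq {κ : Type*} (s : Finset κ) (f : κ → B)
    (hf : ∀ i ∈ s, ∀ j ∈ s, i ≠ j → τ (star (f i) * f j) = 0) :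
    τ.n2 (∑ i ∈ s, f i) ^ 2 = ∑ i ∈ s, τ.n2 (f i) ^ 2 := by
  classical
  rw [τ.n2_sq, star_sum, Finset.sum_mul_sum, τ.tr_sum, Complex.re_sum]
  refine Finset.sum_congr rfl fun i hi => ?_
  rw [τ.tr_sum, Finset.sum_eq_single i, τ.n2_sq]
  · intro j hj hji; exact hf i hi j hj hji.symm
  · intro h; exact absurd hi h

/-- Averaging uncorrelated unitaries with known traces. -/
lemma n2_avg_le (m : ℕ) (Y : ℕ → B) (hY : ∀ k < m, Y k ∈ unitary B)
    (horth : ∀ j < m, ∀ k < m, j ≠ k →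
      τ (star (Y j - τ (Y j) • (1 : B)) * (Y k - τ (Y k) • (1 : B))) = 0)
    (hS : 0 < ∑ k ∈ Finset.range m, ‖τ (Y k)‖ ^ 2) :
    τ.n2 (1 - (((∑ k ∈ Finset.range m, ‖τ (Y k)‖ ^ 2 : ℝ) : ℂ))⁻¹ •
      ∑ k ∈ Finset.range m, conj (τ (Y k)) • Y k) ^ 2
        ≤ (∑ k ∈ Finset.range m, ‖τ (Y k)‖ ^ 2)⁻¹ := by
  set S : ℝ := ∑ k ∈ Finset.range m, ‖τ (Y k)‖ ^ 2 with hSdef
  have hS' : (S : ℂ) ≠ 0 := by exact_mod_cast hS.ne'
  have e : 1 - ((S : ℂ))⁻¹ • ∑ k ∈ Finset.range m, conj (τ (Y k)) • Y k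
      = -(((S : ℂ))⁻¹ • ∑ k ∈ Finset.range m, conj (τ (Y k)) • (Y k - τ (Y k) • (1 : B))) := by
    have h1 : ∑ k ∈ Finset.range m, conj (τ (Y k)) • (Y k - τ (Y k) • (1 : B))
        = ∑ k ∈ Finset.range m, conj (τ (Y k)) • Y k - (S : ℂ) • (1 : B) := by
      rw [hSdef, Complex.ofReal_sum, Finset.sum_smul, ← Finset.sum_sub_distrib]
      refine Finset.sum_congr rfl fun k _ => ?_
      rw [smul_sub, smul_smul, Complex.conj_mul']
      push_cast; rfl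
    rw [h1, smul_sub, smul_smul, inv_mul_cancel₀ hS', one_smul, neg_sub]
  rw [e, τ.n2_neg, τ.n2_smul, mul_pow, n2_sum_orth_sq]
  · have h2 : ∑ k ∈ Finset.range m, τ.n2 (conj (τ (Y k)) • (Y k - τ (Y k) • (1 : B))) ^ 2 ≤ S := by
      refine Finset.sum_le_sum fun k hk => ?_
      rw [τ.n2_smul, mul_pow, Complex.norm_conj, τ.n2_sub_tr_sq,
        τ.n2_unitary (hY k (Finset.mem_range.mp hk))]
      nlinarith [sq_nonneg (‖τ (Y k)‖ ^ 2)]
    rw [norm_inv, Complex.norm_real, Real.norm_eq_abs, abs_of_pos hS]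
    calc S⁻¹ ^ 2 * _ ≤ S⁻¹ ^ 2 * S := by gcongr
      _ = S⁻¹ := by field_simp
  · intro i hi j hj hij
    rw [star_smul, smul_mul_assoc, mul_smul_comm, τ.tr_smul, τ.tr_smul,
      horth i (Finset.mem_range.mp hi) j (Finset.mem_range.mp hj) hij]
    simp

/-- The perturbation direction at step `k`. -/
def yk (k0 : ℕ) (g : ℕ → unitary B) (k : ℕ) : B :=
  yv (rho g) (3 * k + 1) (3 * k + 2) (k + k0 + 1) (1 / (48 * Real.sqrt (k + k0 + 1 : ℕ) ^ 3))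
    (Finset.Ioc (-((k + k0 + 1 : ℕ) : ℤ)) 0)

lemma yk_sa (k0 : ℕ) (g : ℕ → unitary B) (k : ℕ) : star (yk k0 g k) = yk k0 g k :=
  yv_sa _ _ _ _ _

/-- The perturbation at step `k`. -/
def vk (k0 : ℕ) (g : ℕ → unitary B) (k : ℕ) : unitary B :=
  ⟨cay (yk k0 g k), cay_mem_unitary (yk_sa k0 g k)⟩

/-- The unitary after `k` steps. -/
def uk (k0 : ℕ) (u0 : unitary B) (g : ℕ → unitary B) : ℕ → unitary B
  | 0 => u0
  | k + 1 => vk k0 g k * uk k0 u0 g k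

/-- The product of the perturbations at steps `k, …, k + d - 1`. -/
def Uk (k0 : ℕ) (g : ℕ → unitary B) (k : ℕ) : ℕ → unitary B
  | 0 => 1
  | d + 1 => vk k0 g (k + d) * Uk k0 g k d

lemma uk_add (k0 : ℕ) (u0 : unitary B) (g : ℕ → unitary B) (k d : ℕ) :
    uk k0 u0 g (k + d) = Uk k0 g k d * uk k0 u0 g k := by
  induction d with
  | zero => simp [Uk]
  | succ d ih => rw [← add_assoc, uk, ih, Uk, mul_assoc]

lemma vk_congr (k0 : ℕ) {g g' : ℕ → unitary B} {k : ℕ} (h : ∀ j < 3 * k + 3, g j = g' j) :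
    vk k0 g k = vk k0 g' k := by
  have : yk k0 g k = yk k0 g' k := by
    have e : ∀ z, rho g (Tg (3 * k + 1) (3 * k + 2) (k + k0 + 1) z)
        = rho g' (Tg (3 * k + 1) (3 * k + 2) (k + k0 + 1) z) := fun z =>
      rho_congr (S := (· < 3 * k + 3)) h (Tg_mem_Supp (by omega) (by omega) _ _)
    simp only [yk, yv, e]
  simp only [vk, this]

lemma uk_congr (k0 : ℕ) (u0 : unitary B) {g g' : ℕ → unitary B} :
    ∀ k, (∀ j < 3 * k, g j = g' j) → uk k0 u0 g k = uk k0 u0 g' k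
  | 0, _ => rfl
  | k + 1, h => by
      rw [uk, uk, vk_congr k0 (fun j hj => h j (by omega)),
        uk_congr k0 u0 k (fun j hj => h j (by omega))]

lemma vk_mem (k0 : ℕ) (g : ℕ → unitary B) (k : ℕ) {H : Subgroup (FreeGroup ℕ)}
    (h : ∀ z, Tg (3 * k + 1) (3 * k + 2) (k + k0 + 1) z ∈ H) :
    (vk k0 g k : B) ∈ csAlg (rho g) H :=
  cay_mem (isClosed_cs _ _) (yk_sa k0 g k) (yv_mem _ fun z _ => h z)

lemma Uk_mem (k0 : ℕ) (g : ℕ → unitary B) (k : ℕ) {p : ℕ → Prop} :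
    ∀ d, (∀ j, k ≤ j → j < k + d → p (3 * j + 1) ∧ p (3 * j + 2)) →
      (Uk k0 g k d : B) ∈ csAlg (rho g) (Supp p)
  | 0, _ => one_mem _
  | d + 1, h => by
      have h1 := h (k + d) (by omega) (by omega)
      exact mul_mem (vk_mem k0 g (k + d) fun z => Tg_mem_Supp h1.1 h1.2 _ _)
        (Uk_mem k0 g k d fun j hj hj' => h j hj (by omega))

lemma norm_tr_vk {g : ℕ → unitary B} (hρ : ∀ w, w ≠ 1 → τ (rho g w) = 0) (k0 k : ℕ) :
    ‖τ (vk k0 g k) - 1‖ ≤ 1 / (288 * ((k + k0 + 1 : ℕ) : ℝ) ^ 2) := by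
  have hn : (0 : ℝ) < ((k + k0 + 1 : ℕ) : ℝ) := by positivity
  set r := Real.sqrt (k + k0 + 1 : ℕ) with hr
  have hr0 : 0 < r := Real.sqrt_pos.mpr hn
  have hr2 : r ^ 2 = ((k + k0 + 1 : ℕ) : ℝ) := Real.sq_sqrt hn.le
  have h1 := norm_tr_cay_sub_one τ (yk_sa k0 g k) (tr_yv hρ (by omega) _ _ _)
  have h2 : τ.n2 (yk k0 g k) ≤ 2 * (1 / (48 * r ^ 3)) * r :=
    n2_yv_le hρ (by omega) _ (by positivity) _ hr0.le (by rw [hr2]; simp; norm_cast)
  have h3 : τ.n2 (yk k0 g k) ^ 2 ≤ (2 * (1 / (48 * r ^ 3)) * r) ^ 2 :=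
    pow_le_pow_left₀ (τ.n2_nonneg _) h2 2
  have h4 : 2 * (2 * (1 / (48 * r ^ 3)) * r) ^ 2 = 1 / (288 * ((k + k0 + 1 : ℕ) : ℝ) ^ 2) := by
    rw [← hr2]; field_simp; norm_num
  change ‖τ (cay (yk k0 g k)) - 1‖ ≤ _
  linarith

lemma norm_tr_Uk {g : ℕ → unitary B} (hρ : ∀ w, w ≠ 1 → τ (rho g w) = 0) (k0 k : ℕ)
    (hk : 0 < k + k0) : ∀ d : ℕ, ‖τ (Uk k0 g k d) - 1‖
      ≤ 1 / 288 * (1 / ((k + k0 : ℕ) : ℝ) - 1 / ((k + d + k0 : ℕ) : ℝ))
  | 0 => by simp [Uk]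
  | d + 1 => by
      have ih := norm_tr_Uk hρ k0 k hk d
      have h1 : τ (Uk k0 g k (d + 1)) = τ (vk k0 g (k + d)) * τ (Uk k0 g k d) :=
        tr_mul_factor hρ (p := fun i => 3 * (k + d) ≤ i) (q := fun i => i < 3 * (k + d))
          (fun i hi => by omega)
          (vk_mem k0 g (k + d) fun z => Tg_mem_Supp (by omega) (by omega) _ _)
          (Uk_mem k0 g k d fun j _ hj => by omega)
      have h2 := norm_tr_vk hρ k0 (k + d)
      have h3 : ‖τ (Uk k0 g k d)‖ ≤ 1 :=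
        (τ.norm_tr_le _).trans (τ.norm_unitary (Uk k0 g k d).2).le
      have h4 : τ (vk k0 g (k + d)) * τ (Uk k0 g k d) - 1
          = (τ (vk k0 g (k + d)) - 1) * τ (Uk k0 g k d) + (τ (Uk k0 g k d) - 1) := by ring
      rw [h1, h4]
      refine (norm_add_le _ _).trans ?_
      rw [norm_mul]
      have h5 : ‖τ (vk k0 g (k + d)) - 1‖ * ‖τ (Uk k0 g k d)‖
          ≤ 1 / (288 * ((k + d + k0 + 1 : ℕ) : ℝ) ^ 2) :=
        (mul_le_of_le_one_right (norm_nonneg _) h3).trans h2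
      have ha : (0 : ℝ) < ((k + d + k0 : ℕ) : ℝ) := by exact_mod_cast (by omega : 0 < k + d + k0)
      have h6 : 1 / (288 * ((k + d + k0 + 1 : ℕ) : ℝ) ^ 2)
          ≤ 1 / 288 * (1 / ((k + d + k0 : ℕ) : ℝ) - 1 / ((k + (d + 1) + k0 : ℕ) : ℝ)) := by
        have e1 : ((k + (d + 1) + k0 : ℕ) : ℝ) = ((k + d + k0 : ℕ) : ℝ) + 1 := by push_cast; ring
        have e2 : ((k + d + k0 + 1 : ℕ) : ℝ) = ((k + d + k0 : ℕ) : ℝ) + 1 := by push_cast; ring
        rw [e1, e2]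
        generalize ((k + d + k0 : ℕ) : ℝ) = a at ha
        have : 1 / 288 * (1 / a - 1 / (a + 1)) = 1 / (288 * (a * (a + 1))) := by
          field_simp; ring
        rw [this]
        apply one_div_le_one_div_of_le (by positivity)
        nlinarith
      linarith

/-- The decoded element at step `k` with `d` later steps. -/
def Xk (k0 : ℕ) (g : ℕ → unitary B) (k d : ℕ) : B :=
  ((Uk k0 g (k + 1) d : B) * ((vk k0 g k : B) * g (3 * k + 1))) ^ (k + k0 + 1) *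
    star (g (3 * k + 2) : B)

lemma Xk_unitary (k0 : ℕ) (g : ℕ → unitary B) (k d : ℕ) : Xk k0 g k d ∈ unitary B :=
  mul_mem (pow_mem (mul_mem (Uk k0 g (k + 1) d).2 (mul_mem (vk k0 g k).2 (g _).2)) _)
    (Unitary.star_mem (g _).2)

lemma g_mem (g : ℕ → unitary B) {p : ℕ → Prop} {i : ℕ} (h : p i) :
    (g i : B) ∈ csAlg (rho g) (Supp p) := by
  have := mem_cs (rho g) (T := Supp p) (of_mem_Supp h)
  rwa [rho_of] at this

lemma Xk_mem (k0 : ℕ) (g : ℕ → unitary B) (k d : ℕ) :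
    Xk k0 g k d ∈ csAlg (rho g) (Supp fun i => i % 3 ≠ 0) :=
  mul_mem (pow_mem (mul_mem (Uk_mem k0 g (k + 1) d fun j _ _ => by omega)
    (mul_mem (vk_mem k0 g k fun z => Tg_mem_Supp (by omega) (by omega) _ _)
      (g_mem g (by omega)))) _) (star_mem (g_mem g (by omega)))

lemma norm_tr_Xk {g : ℕ → unitary B} (hρ : ∀ w, w ≠ 1 → τ (rho g w) = 0) (k0 k d : ℕ) :
    1 / (96 ^ 2 * ((k + k0 + 1 : ℕ) : ℝ)) ≤ ‖τ (Xk k0 g k d)‖ ^ 2 := by
  have hn : (0 : ℝ) < ((k + k0 + 1 : ℕ) : ℝ) := by positivity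
  set r := Real.sqrt (k + k0 + 1 : ℕ) with hr
  have hr0 : 0 < r := Real.sqrt_pos.mpr hn
  have hr2 : r ^ 2 = ((k + k0 + 1 : ℕ) : ℝ) := Real.sq_sqrt hn.le
  have hwc : 3 * k + 2 ≠ 3 * k + 1 := by omega
  let dg := deg (3 * k + 1) (3 * k + 2) (k + k0 + 1)
  have hv : (vk k0 g k : B) ∈ csAlg (rho g) (Supp (fun i => i < 3 * (k + 1)) ⊓ dg.ker) :=
    vk_mem k0 g k fun z => ⟨Tg_mem_Supp (by omega) (by omega) _ _, deg_Tg hwc _ z⟩
  have hW : (vk k0 g k : B) * g (3 * k + 1) ∈ cs (rho g)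
      {h | h ∈ Supp (fun i => i < 3 * (k + 1)) ∧ dg h = Multiplicative.ofAdd 1} := by
    rw [← rho_of g (3 * k + 1)]
    refine cs_mul (rho g) (T₂ := {FreeGroup.of (3 * k + 1)}) ?_ hv (mem_cs _ rfl)
    intro a ha b hb
    rw [Set.mem_singleton_iff.mp hb]
    refine ⟨mul_mem ha.1 (of_mem_Supp (by omega)), ?_⟩
    rw [map_mul, show dg a = 1 from ha.2, one_mul, deg_w]
  have h1 : τ (Xk k0 g k d) = τ (Uk k0 g (k + 1) d) ^ (k + k0 + 1) *
      τ (((vk k0 g k : B) * g (3 * k + 1)) ^ (k + k0 + 1) * star (g (3 * k + 2) : B)) :=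
    tr_pow_factor hρ (p := fun i => 3 * (k + 1) ≤ i) (q := fun i => i < 3 * (k + 1))
      (fun i hi => by omega) dg (Uk_mem k0 g (k + 1) d fun j _ _ => by omega) hW
      (show star (g (3 * k + 2) : B) ∈ csAlg (rho g) _ from star_mem (g_mem g (by omega))) _
  have h2 := signal hρ hwc (n := k + k0 + 1) (by omega) hr0 hr2
  rw [rho_of, rho_of] at h2
  have h3 := norm_tr_Uk hρ k0 (k + 1) (by omega) d
  have h4 : 1 + -(1 / (288 * ((k + k0 + 1 : ℕ) : ℝ))) ≤ ‖τ (Uk k0 g (k + 1) d)‖ := by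
    have e1 := norm_sub_norm_le (1 : ℂ) (τ (Uk k0 g (k + 1) d))
    rw [norm_one, norm_sub_rev] at e1
    have e2 : (0 : ℝ) ≤ 1 / ((k + 1 + d + k0 : ℕ) : ℝ) := by positivity
    have e3 : ((k + 1 + k0 : ℕ) : ℝ) = ((k + k0 + 1 : ℕ) : ℝ) := by push_cast; ring
    have e4 : 1 / (288 * ((k + k0 + 1 : ℕ) : ℝ)) = 1 / 288 * (1 / ((k + k0 + 1 : ℕ) : ℝ)) := by
      field_simp
    rw [e3] at h3
    linarith
  have hn1 : (1 : ℝ) ≤ ((k + k0 + 1 : ℕ) : ℝ) := by exact_mod_cast (by omega : 1 ≤ k + k0 + 1)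
  have hsmall : 1 / (288 * ((k + k0 + 1 : ℕ) : ℝ)) ≤ 1 := by
    rw [div_le_one (by positivity)]; linarith
  have h5 : 1 / 2 ≤ ‖τ (Uk k0 g (k + 1) d)‖ ^ (k + k0 + 1) := by
    have e1 := one_add_mul_le_pow (a := -(1 / (288 * ((k + k0 + 1 : ℕ) : ℝ)))) (by linarith)
      (k + k0 + 1)
    have e2 : ((k + k0 + 1 : ℕ) : ℝ) * -(1 / (288 * ((k + k0 + 1 : ℕ) : ℝ))) = -(1 / 288) := by
      field_simp
    rw [e2] at e1
    have e3 := pow_le_pow_left₀ (by linarith) h4 (k + k0 + 1)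
    linarith
  have h6 : 1 / (96 * r) ≤ ‖τ (Xk k0 g k d)‖ := by
    rw [h1, norm_mul, norm_pow]
    calc 1 / (96 * r) = 1 / 2 * (1 / (48 * r)) := by field_simp; norm_num
      _ ≤ _ := mul_le_mul h5 h2 (by positivity) (by positivity)
  calc 1 / (96 ^ 2 * ((k + k0 + 1 : ℕ) : ℝ)) = (1 / (96 * r)) ^ 2 := by rw [← hr2]; field_simp
    _ ≤ _ := pow_le_pow_left₀ (by positivity) h6 2

theorem approxGen_of_freeExt {Q : StarSubalgebra ℂ B} (hQ : τ.FreeExt (Q : Set B)) :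
    τ.ApproxGen Q := by
  intro u0 hu0 x hx η hη
  obtain ⟨k0, hk0⟩ := exists_nat_gt (1 / η ^ 2)
  have hk0' : (0 : ℝ) < k0 := lt_trans (by positivity) hk0
  have hk0'' : 0 < k0 := by exact_mod_cast hk0'
  let φ : ℕ → (ℕ → unitary B) → unitary B := fun i g =>
    if i % 3 = 0 then 1 else if i % 3 = 1 then uk k0 ⟨u0, hu0⟩ g (i / 3) else g (i - 2) * ⟨x, hx⟩
  obtain ⟨g, hρ, hg⟩ := exists_free_family τ hQ φ (by
    intro i g g' h
    simp only [φ]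
    split_ifs with h0 h1
    · rfl
    · exact uk_congr k0 _ _ fun j hj => h j (by omega)
    · rw [h (i - 2) (by omega)])
  have hb : ∀ k, (g (3 * k) : B) ∈ Q := fun k => by
    have := hg (3 * k)
    simp only [φ, Nat.mul_mod_right, if_true] at this
    simpa using this
  have ha : ∀ k, star (uk k0 ⟨u0, hu0⟩ g k : B) * g (3 * k + 1) ∈ Q := fun k => by
    have := hg (3 * k + 1)
    simp only [φ] at this
    rw [if_neg (by omega), if_pos (by omega), show (3 * k + 1) / 3 = k by omega] at this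
    exact this
  have hc : ∀ k, star ((g (3 * k) : B) * x) * g (3 * k + 2) ∈ Q := fun k => by
    have := hg (3 * k + 2)
    simp only [φ] at this
    rw [if_neg (by omega), if_neg (by omega), show 3 * k + 2 - 2 = 3 * k by omega] at this
    exact this
  -- choose the number of steps
  obtain ⟨m, hm⟩ : ∃ m : ℕ, 96 ^ 2 / η ^ 2 < ∑ k ∈ Finset.range m, 1 / ((k + k0 + 1 : ℕ) : ℝ) := by
    have h1 : ¬ Summable (fun k : ℕ => 1 / ((k + (k0 + 1) : ℕ) : ℝ)) := by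
      rw [summable_nat_add_iff (f := fun k : ℕ => 1 / (k : ℝ))]
      exact Real.not_summable_one_div_natCast
    have h2 := (not_summable_iff_tendsto_nat_atTop_of_nonneg (fun k => by positivity)).mp h1
    obtain ⟨m, hm⟩ := (h2.eventually_gt_atTop (96 ^ 2 / η ^ 2)).exists
    exact ⟨m, by simpa [add_assoc] using hm⟩
  let u : unitary B := uk k0 ⟨u0, hu0⟩ g m
  let Y : ℕ → B := fun k => star (g (3 * k) : B) * Xk k0 g k (m - (k + 1)) * g (3 * k)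
  have hYu : ∀ k, Y k ∈ unitary B := fun k =>
    mul_mem (mul_mem (Unitary.star_mem (g _).2) (Xk_unitary _ _ _ _)) (g _).2
  have hYtr : ∀ k, τ (Y k) = τ (Xk k0 g k (m - (k + 1))) := fun k =>
    τ.tr_conj_unitary' (g _).2 _
  have hYc : ∀ k, Y k - τ (Y k) • (1 : B) = star (g (3 * k) : B) *
      (Xk k0 g k (m - (k + 1)) - τ (Xk k0 g k (m - (k + 1))) • (1 : B)) * g (3 * k) := fun k => by
    rw [hYtr, mul_sub, sub_mul, mul_smul_comm, smul_mul_assoc, mul_one,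
      (Unitary.mem_iff.mp (g (3 * k)).2).1]
  have hSlow : 1 / η ^ 2 < ∑ k ∈ Finset.range m, ‖τ (Y k)‖ ^ 2 := by
    calc 1 / η ^ 2 = 1 / 96 ^ 2 * (96 ^ 2 / η ^ 2) := by field_simp
      _ < 1 / 96 ^ 2 * ∑ k ∈ Finset.range m, 1 / ((k + k0 + 1 : ℕ) : ℝ) := by gcongr
      _ = ∑ k ∈ Finset.range m, 1 / (96 ^ 2 * ((k + k0 + 1 : ℕ) : ℝ)) := by
          rw [Finset.mul_sum]
          exact Finset.sum_congr rfl fun k _ => by field_simp
      _ ≤ _ := Finset.sum_le_sum fun k _ => by rw [hYtr]; exact norm_tr_Xk hρ k0 k _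
  have hS : 0 < ∑ k ∈ Finset.range m, ‖τ (Y k)‖ ^ 2 := lt_trans (by positivity) hSlow
  have havg := n2_avg_le (τ := τ) m Y (fun k _ => hYu k) (fun j _ k _ hjk => by
    rw [hYc, hYc, ← rho_of g (3 * j), ← rho_of g (3 * k)]
    exact tr_conj_orth hρ (p := fun i => i % 3 ≠ 0) (by omega) (by omega) (by omega)
      (cs_center hρ (Xk_mem _ _ _ _)) (cs_center hρ (Xk_mem _ _ _ _))) hS
  refine ⟨u, u.2, ?_, (((∑ k ∈ Finset.range m, ‖τ (Y k)‖ ^ 2 : ℝ) : ℂ))⁻¹ •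
      ∑ k ∈ Finset.range m, conj (τ (Y k)) • (Y k * x), ?_, ?_⟩
  · have h1 : (u : B) - u0 = ((Uk k0 g 0 m : B) - 1) * u0 := by
      have := uk_add k0 ⟨u0, hu0⟩ g 0 m
      rw [zero_add] at this
      simp only [u, this, sub_mul, one_mul]
      rfl
    have h2 := norm_tr_Uk hρ k0 0 (by omega) m
    have h3 := τ.n2_unitary_sub_one_sq (Uk k0 g 0 m).2
    have h4 : 1 - (τ (Uk k0 g 0 m)).re ≤ ‖τ (Uk k0 g 0 m) - 1‖ := by
      have := Complex.abs_re_le_norm (τ (Uk k0 g 0 m) - 1)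
      rw [Complex.sub_re, Complex.one_re] at this
      linarith [neg_abs_le ((τ (Uk k0 g 0 m)).re - 1)]
    have h5 : (0 : ℝ) ≤ 1 / ((0 + m + k0 : ℕ) : ℝ) := by positivity
    have h6 : 1 / ((0 + k0 : ℕ) : ℝ) < η ^ 2 := by
      rw [zero_add, div_lt_iff₀ hk0']
      rw [div_lt_iff₀ (by positivity)] at hk0
      linarith
    rw [h1, τ.n2_mul_unitary _ hu0]
    refine lt_of_pow_lt_pow_left₀ 2 hη.le ?_
    nlinarith
  · refine SMulMemClass.smul_mem _ (sum_mem fun k hk => SMulMemClass.smul_mem _ ?_)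
    have hk' := Finset.mem_range.mp hk
    have hQm : ∀ q ∈ Q, q ∈ StarAlgebra.adjoin ℂ (insert (u : B) (Q : Set B)) := fun q hq =>
      StarAlgebra.subset_adjoin ℂ _ (Set.mem_insert_of_mem _ hq)
    have hum : (u : B) ∈ StarAlgebra.adjoin ℂ (insert (u : B) (Q : Set B)) :=
      StarAlgebra.subset_adjoin ℂ _ (Set.mem_insert _ _)
    have e1 : (u : B) * (star (uk k0 ⟨u0, hu0⟩ g k : B) * g (3 * k + 1))
        = (Uk k0 g (k + 1) (m - (k + 1)) : B) * ((vk k0 g k : B) * g (3 * k + 1)) := by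
      have := uk_add k0 ⟨u0, hu0⟩ g (k + 1) (m - (k + 1))
      rw [show k + 1 + (m - (k + 1)) = m by omega] at this
      simp only [u, this, uk, Submonoid.coe_mul, mul_assoc]
      rw [← mul_assoc (uk k0 ⟨u0, hu0⟩ g k : B), (Unitary.mem_iff.mp (uk k0 ⟨u0, hu0⟩ g k).2).2,
        one_mul]
    have e2 : Y k * x = star (g (3 * k) : B) *
        ((u : B) * (star (uk k0 ⟨u0, hu0⟩ g k : B) * g (3 * k + 1))) ^ (k + k0 + 1) *
        star (star ((g (3 * k) : B) * x) * g (3 * k + 2)) := by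
      rw [e1, star_mul, star_star]
      simp only [Y, Xk, mul_assoc]
    rw [e2]
    exact mul_mem (mul_mem (star_mem (hQm _ (hb k))) (pow_mem (mul_mem hum (hQm _ (ha k))) _))
      (star_mem (hQm _ (hc k)))
  · have e : x - (((∑ k ∈ Finset.range m, ‖τ (Y k)‖ ^ 2 : ℝ) : ℂ))⁻¹ •
        ∑ k ∈ Finset.range m, conj (τ (Y k)) • (Y k * x)
        = (1 - (((∑ k ∈ Finset.range m, ‖τ (Y k)‖ ^ 2 : ℝ) : ℂ))⁻¹ •
          ∑ k ∈ Finset.range m, conj (τ (Y k)) • Y k) * x := by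
      rw [sub_mul, one_mul, smul_mul_assoc, Finset.sum_mul]
      simp only [smul_mul_assoc]
    rw [e, τ.n2_mul_unitary _ hx]
    refine lt_of_pow_lt_pow_left₀ 2 hη.le (havg.trans_lt ?_)
    rw [inv_lt_comm₀ hS (by positivity), ← one_div]
    exact hSlow

end Crest.Agent.R95
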