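import Crest.Agent.R95.Generic
import Crest.Agent.Lib.Tracial.Tower

/-! A single generator for a separable II₁ factor (abstract form). -/

set_option autoImplicit false

open Crest.Agent.Lib.Tracial Filter
open scoped Topology

noncomputable section

namespace Crest.Agent.R95

variable {A : Type*} [CStarAlgebra A]

lemma sym_mem {S : StarSubalgebra ℂ A} (hS : IsClosed (S : Set A)) {t y : A} (ht : t * t = 1)
    (htn : ‖t‖ ≤ 1) (hc : Commute t y) (hy : ‖y‖ ≤ 1 / 2) (h : t + y ∈ S) : t ∈ S := by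
  let φ : A → A := fun y => (-(2 : ℂ)⁻¹) • ((3 : ℂ) • (t * y * y) + y * y * y)
  have key : ∀ n : ℕ, Commute t (φ^[n] y) ∧ ‖φ^[n] y‖ ≤ (7 / 8) ^ n * (1 / 2) ∧
      t + φ^[n] y ∈ S := by
    intro n
    induction n with
    | zero => exact ⟨hc, by simpa using hy, h⟩
    | succ n ih =>
      obtain ⟨h1, h2, h3⟩ := ih
      rw [Function.iterate_succ_apply']
      set z := φ^[n] y
      refine ⟨?_, ?_, ?_⟩
      · exact ((((Commute.refl t).mul_right h1).mul_right h1).smul_right _).add_right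
          ((h1.mul_right h1).mul_right h1) |>.smul_right _
      · have hz : ‖z‖ ≤ 1 / 2 := h2.trans (by
          have : ((7 : ℝ) / 8) ^ n ≤ 1 := pow_le_one₀ (by norm_num) (by norm_num)
          linarith)
        have hz0 := norm_nonneg z
        have k1 : ‖t * z * z‖ ≤ ‖z‖ * ‖z‖ := by
          refine (norm_mul_le _ _).trans (mul_le_mul_of_nonneg_right ?_ hz0)
          exact (norm_mul_le _ _).trans (mul_le_of_le_one_left hz0 htn)
        have k2 : ‖z * z * z‖ ≤ ‖z‖ * ‖z‖ * ‖z‖ :=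
          (norm_mul_le _ _).trans (mul_le_mul_of_nonneg_right (norm_mul_le _ _) hz0)
        have k3 := norm_add_le ((3 : ℂ) • (t * z * z)) (z * z * z)
        rw [norm_smul] at k3
        simp only [Complex.norm_ofNat] at k3
        simp only [φ, norm_smul, norm_neg, norm_inv, Complex.norm_ofNat]
        have k4 : ‖z‖ * ‖z‖ ≤ ‖z‖ * (1 / 2) := by gcongr
        have k5 : ‖z‖ * ‖z‖ * ‖z‖ ≤ ‖z‖ * (1 / 2) * (1 / 2) := by gcongr
        rw [pow_succ]
        nlinarith
      · have e : t + φ z = (2 : ℂ)⁻¹ • ((3 : ℂ) • (t + z) - (t + z) * (t + z) * (t + z)) := by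
          have hzt : z * t = t * z := h1.eq.symm
          have e1 : (t + z) * (t + z) * (t + z)
              = t + (3 : ℂ) • z + (3 : ℂ) • (t * z * z) + z * z * z := by
            have a1 : t * z * t = z := by rw [mul_assoc, hzt, ← mul_assoc, ht, one_mul]
            have a3 : z * z * t = t * z * z := by rw [mul_assoc, hzt, ← mul_assoc, hzt]
            simp only [add_mul, mul_add, ht, one_mul, a1, a3, hzt]
            module
          rw [e1]
          simp only [φ]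
          module
        rw [e]
        exact SMulMemClass.smul_mem _ (sub_mem (SMulMemClass.smul_mem _ h3)
          (mul_mem (mul_mem h3 h3) h3))
  have hlim : Tendsto (fun n => t + φ^[n] y) atTop (𝓝 t) := by
    have h0 : Tendsto (fun n => φ^[n] y) atTop (𝓝 0) := by
      refine squeeze_zero_norm (fun n => (key n).2.1) ?_
      simpa using (tendsto_pow_atTop_nhds_zero_of_lt_one (r := 7 / 8) (by norm_num)
        (by norm_num)).mul_const (1 / 2 : ℝ)
    simpa using h0.const_add t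
  exact hS.mem_of_tendsto hlim (Eventually.of_forall fun n => (key n).2.2)

/-- The series `∑ 3⁻ʲ t_{j+k}`. -/
def ser (t : ℕ → A) (k : ℕ) : A := ∑' j, ((3 : ℂ)⁻¹ ^ j) • t (j + k)

lemma ser_summable_norm {t : ℕ → A} (htn : ∀ j, ‖t j‖ ≤ 1) (k : ℕ) :
    Summable fun j => ‖((3 : ℂ)⁻¹ ^ j) • t (j + k)‖ := by
  refine Summable.of_nonneg_of_le (fun _ => norm_nonneg _) (fun j => ?_)
    (summable_geometric_of_lt_one (r := 3⁻¹) (by norm_num) (by norm_num))
  rw [norm_smul, norm_pow, norm_inv, Complex.norm_ofNat]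
  exact mul_le_of_le_one_right (by positivity) (htn _)

lemma norm_ser_le {t : ℕ → A} (htn : ∀ j, ‖t j‖ ≤ 1) (k : ℕ) : ‖ser t k‖ ≤ 3 / 2 := by
  have h := hasSum_geometric_of_lt_one (r := (3 : ℝ)⁻¹) (by norm_num) (by norm_num)
  refine (tsum_of_norm_bounded h fun j => ?_).trans (by norm_num)
  rw [norm_smul, norm_pow, norm_inv, Complex.norm_ofNat]
  exact mul_le_of_le_one_right (by positivity) (htn _)

lemma ser_succ {t : ℕ → A} (htn : ∀ j, ‖t j‖ ≤ 1) (k : ℕ) :
    ser t k = t k + (3 : ℂ)⁻¹ • ser t (k + 1) := by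
  rw [ser, (ser_summable_norm htn k).of_norm.tsum_eq_zero_add, ser,
    ← (ser_summable_norm htn (k + 1)).of_norm.tsum_const_smul]
  simp only [pow_zero, one_smul, zero_add]
  congr 1
  refine tsum_congr fun j => ?_
  rw [smul_smul, pow_succ', add_assoc, add_comm 1 k]

lemma ser_sa {t : ℕ → A} (hsa : ∀ j, star (t j) = t j) (k : ℕ) : star (ser t k) = ser t k := by
  rw [ser, tsum_star]
  refine tsum_congr fun j => ?_
  rw [star_smul, hsa]; simp

lemma mem_of_ser_mem {S : StarSubalgebra ℂ A} (hS : IsClosed (S : Set A)) {t : ℕ → A}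
    (ht : ∀ j, t j * t j = 1) (htn : ∀ j, ‖t j‖ ≤ 1) (hc : ∀ i j, t i * t j = t j * t i)
    (h : ser t 0 ∈ S) (j : ℕ) : t j ∈ S := by
  have step : ∀ k, ser t k ∈ S → t k ∈ S := fun k hk => by
    rw [ser_succ htn] at hk
    refine sym_mem hS (ht k) (htn k) ?_ ?_ hk
    · exact (Commute.tsum_right _ fun j => Commute.smul_right (hc _ _) _).smul_right _
    · rw [norm_smul, norm_inv, Complex.norm_ofNat]
      have := norm_ser_le htn (k + 1)
      linarith
  have all : ∀ k, ser t k ∈ S := by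
    intro k
    induction k with
    | zero => exact h
    | succ k ih =>
      have : ser t (k + 1) = (3 : ℂ) • (ser t k - t k) := by
        rw [ser_succ htn k, add_sub_cancel_left, smul_smul]; simp
      rw [this]
      exact SMulMemClass.smul_mem _ (sub_mem ih (step k ih))
  exact step j (all j)

lemma sym_mem8 {S : StarSubalgebra ℂ A} (hS : IsClosed (S : Set A)) {t a b : A} (ht : t * t = 1)
    (htn : ‖t‖ ≤ 1) (ha : t * a = a * t) (hb : t * b = b * t) (han : ‖a‖ ≤ 2) (hbn : ‖b‖ ≤ 2)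
    (h : (8 : ℂ) • t + (a + t * b) ∈ S) : t ∈ S ∧ a + t * b ∈ S := by
  have h1 : t ∈ S := by
    refine sym_mem hS (y := (8 : ℂ)⁻¹ • (a + t * b)) ht htn ?_ ?_ ?_
    · exact (Commute.add_right ha ((Commute.refl t).mul_right hb)).smul_right _
    · rw [norm_smul, norm_inv, Complex.norm_ofNat]
      have k1 := norm_add_le a (t * b)
      have k2 : ‖t * b‖ ≤ ‖b‖ := (norm_mul_le _ _).trans (mul_le_of_le_one_left (norm_nonneg _) htn)
      linarith
    · have := SMulMemClass.smul_mem (8 : ℂ)⁻¹ h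
      rwa [smul_add, smul_smul, inv_mul_cancel₀ (by norm_num), one_smul] at this
  refine ⟨h1, ?_⟩
  have := sub_mem h (SMulMemClass.smul_mem (8 : ℂ) h1)
  rwa [add_sub_cancel_left] at this

lemma split_mem {S : StarSubalgebra ℂ A} {s t a b : A} (hs : s * s = 1) (ht : t * t = 1)
    (hst : s * t = -(t * s)) (ha : s * a = a * s) (hb : s * b = b * s) (hsS : s ∈ S) (htS : t ∈ S)
    (h : a + t * b ∈ S) : a ∈ S ∧ b ∈ S := by
  have e : s * (a + t * b) * s = a - t * b := by
    rw [mul_add, add_mul, ha, mul_assoc a, hs, mul_one, ← mul_assoc s t, hst, neg_mul, neg_mul,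
      mul_assoc t s, hb, mul_assoc t, mul_assoc b, hs, mul_one, sub_eq_add_neg]
  have h' : a - t * b ∈ S := e ▸ mul_mem (mul_mem hsS h) hsS
  have h1 : a ∈ S := by
    have := SMulMemClass.smul_mem (2 : ℂ)⁻¹ (add_mem h h')
    rwa [show (2 : ℂ)⁻¹ • (a + t * b + (a - t * b)) = a by module] at this
  refine ⟨h1, ?_⟩
  have := mul_mem htS (sub_mem h h1)
  rwa [add_sub_cancel_left, ← mul_assoc, ht, one_mul] at this

lemma isClosed_of_wclosed (τ : TrState A) {S : Set A} (h : τ.WClosed S) : IsClosed S := by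
  refine isSeqClosed_iff_isClosed.mp fun x y hx hxy => ?_
  obtain ⟨C, hC⟩ := (Metric.isBounded_range_of_tendsto x hxy).exists_norm_le
  refine h x C y hx (fun n => hC _ ⟨n, rfl⟩) ?_
  refine squeeze_zero (fun n => τ.n2_nonneg _) (fun n => τ.n2_le_norm _) ?_
  exact tendsto_iff_norm_sub_tendsto_zero.mp hxy

lemma separable_sub (τ : TrState A) (hS : τ.Separable) (D : StarSubalgebra ℂ A)
    [IsClosed (D : Set A)] : (τ.comp D.subtype).Separable := by
  classical
  obtain ⟨z, hz⟩ := hS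
  have : ∀ n k : ℕ, ∃ x : D, (∃ y : D, τ.n2 (y - z n) < 1 / ((k : ℝ) + 1)) →
      τ.n2 (x - z n) < 1 / ((k : ℝ) + 1) := by
    intro n k
    by_cases h : ∃ y : D, τ.n2 (y - z n) < 1 / ((k : ℝ) + 1)
    · obtain ⟨y, h⟩ := h
      exact ⟨y, fun _ => h⟩
    · exact ⟨1, fun h' => absurd h' h⟩
  choose x hx' using this
  refine ⟨fun n => x n.unpair.1 n.unpair.2, fun y ε hε => ?_⟩
  obtain ⟨k, hk⟩ := exists_nat_one_div_lt (half_pos hε)
  obtain ⟨n, hn⟩ := hz y (1 / ((k : ℝ) + 1)) (by positivity)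
  refine ⟨Nat.pair n k, ?_⟩
  simp only [Nat.unpair_pair]
  have h1 := hx' n k ⟨y, hn⟩
  have h2 := τ.n2_triangle y (z n) (x n k)
  rw [τ.n2_sub_rev (z n)] at h2
  rw [τ.comp_n2]
  change τ.n2 ((y : A) - x n k) < ε
  linarith

lemma complete_sub (τ : TrState A) (hC : τ.Complete) (D : StarSubalgebra ℂ A)
    [IsClosed (D : Set A)] (hD : τ.WClosed D) : (τ.comp D.subtype).Complete := by
  intro x C hx hcau
  simp only [τ.comp_n2] at hcau ⊢
  obtain ⟨y, hy, hlim⟩ := hC (fun n => (x n : A)) C hx hcau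
  exact ⟨⟨y, hD _ C y (fun n => (x n).2) hx hlim⟩, hy, hlim⟩

lemma faithful_sub (τ : TrState A) (hF : τ.Faithful) (D : StarSubalgebra ℂ A)
    [IsClosed (D : Set A)] : (τ.comp D.subtype).Faithful := by
  intro x hx
  rw [τ.comp_n2] at hx
  exact Subtype.ext (hF _ hx)

universe u in
theorem exists_single_gen {A : Type u} [CStarAlgebra A]
    (hcut : ∀ {B : Type u} [CStarAlgebra B] (σ : TrState B), σ.Faithful → σ.Complete → σ.CutProp)
    (τ : TrState A) (hF : τ.Faithful) (hC : τ.Complete) (hS : τ.Separable)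
    (hirr : TrState.Irr (⊤ : StarSubalgebra ℂ A) ⊤) (hinf : ¬ FiniteDimensional ℂ A) :
    ∃ x : A, ∀ S : StarSubalgebra ℂ A, IsClosed (S : Set A) → x ∈ S → τ.Dense2 S := by
  obtain ⟨s0, t0, hs0, ht0, hss, htt, hst, hDw, hDirr, hDinf, hdec⟩ :=
    τ.exists_pair_commutant hF (hcut τ hF hC) hirr hinf
  set D := StarSubalgebra.centralizer ℂ ({s0, t0} : Set A) with hD
  have hDc : IsClosed (D : Set A) := isClosed_of_wclosed τ hDw
  have hcomm : ∀ d : D, s0 * d = d * s0 ∧ t0 * d = d * t0 := fun d => by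
    have := (StarSubalgebra.mem_centralizer_iff ℂ).mp d.2
    exact ⟨(this s0 (by simp)).1, (this t0 (by simp)).1⟩
  let σ : TrState D := τ.comp D.subtype
  have hσF : σ.Faithful := faithful_sub τ hF D
  have hσC : σ.Complete := complete_sub τ hC D hDw
  have hσS : σ.Separable := separable_sub τ hS D
  obtain ⟨s, t, hP, -, hAV⟩ := σ.exists_tower_AV hσF hσS (hcut σ hσF hσC) ⊤
    (fun _ _ _ _ _ _ => trivial) (by
      intro z _ hz
      obtain ⟨c, hc⟩ := hDirr z z.2 fun q hq => congrArg Subtype.val (hz ⟨q, hq⟩ trivial)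
      exact ⟨c, Subtype.ext hc⟩) (by
      intro h
      apply hDinf
      exact Module.Finite.of_surjective
        ((⊤ : StarSubalgebra ℂ D).subtype : (⊤ : StarSubalgebra ℂ D) →ₗ[ℂ] D)
        fun d => ⟨⟨d, trivial⟩, rfl⟩)
  obtain ⟨v, hv, hgen, -⟩ := generic_gen σ hσF hσC hσS (approxGen_of_AV hAV) (one_mem _) one_pos
  have hsym : ∀ {B : Type u} [CStarAlgebra B] (ν : TrState B) {r : B}, star r = r → r * r = 1 →
      ‖r‖ ≤ 1 := fun ν r h1 h2 =>
    (ν.norm_unitary (Unitary.mem_iff.mpr ⟨by rw [h1, h2], by rw [h1, h2]⟩)).le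
  have hsn : ∀ j, ‖s j‖ ≤ 1 := fun j => hsym σ (hP.s_sa j) (hP.s_sq j)
  have htn : ∀ j, ‖t j‖ ≤ 1 := fun j => hsym σ (hP.t_sa j) (hP.t_sq j)
  have hvn : ‖v‖ = 1 := σ.norm_unitary hv
  let y1 : D := ser t 0
  let y2 : D := ser s 0
  let y3 : D := v + star v
  let y4 : D := Complex.I • (v - star v)
  have n1 : ‖(y1 : A)‖ ≤ 2 := (norm_ser_le htn 0).trans (by norm_num)
  have n2 : ‖(y2 : A)‖ ≤ 2 := (norm_ser_le hsn 0).trans (by norm_num)
  have n3 : ‖(y3 : A)‖ ≤ 2 := by
    have := norm_add_le v (star v)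
    rw [norm_star, hvn] at this
    change ‖y3‖ ≤ 2
    simp only [y3]; linarith
  have n4 : ‖(y4 : A)‖ ≤ 2 := by
    have := norm_sub_le v (star v)
    rw [norm_star, hvn] at this
    change ‖y4‖ ≤ 2
    simp only [y4, norm_smul, Complex.norm_I, one_mul]; linarith
  have sa1 : star (y1 : A) = y1 := congrArg Subtype.val (ser_sa hP.t_sa 0)
  have sa2 : star (y2 : A) = y2 := congrArg Subtype.val (ser_sa hP.s_sa 0)
  have sa3 : star (y3 : A) = y3 := by
    have : star y3 = y3 := by simp only [y3, star_add, star_star, add_comm]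
    exact congrArg Subtype.val this
  have sa4 : star (y4 : A) = y4 := by
    have : star y4 = y4 := by
      simp only [y4, star_smul, star_sub, star_star, Complex.star_def, Complex.conj_I]
      module
    exact congrArg Subtype.val this
  let h1 : A := (8 : ℂ) • t0 + (y1 + t0 * y2)
  let h2 : A := (8 : ℂ) • s0 + (y3 + s0 * y4)
  have sh1 : star h1 = h1 := by
    simp only [h1, star_add, star_smul, star_mul, ht0, sa1, sa2, (hcomm y2).2]; simp
  have sh2 : star h2 = h2 := by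
    simp only [h2, star_add, star_smul, star_mul, hs0, sa3, sa4, (hcomm y4).1]; simp
  refine ⟨h1 + Complex.I • h2, fun S hSc hx => ?_⟩
  have hxs : h1 - Complex.I • h2 ∈ S := by
    have := star_mem hx
    rwa [star_add, star_smul, sh1, sh2, Complex.star_def, Complex.conj_I, neg_smul,
      ← sub_eq_add_neg] at this
  have hh1 : h1 ∈ S := by
    have := SMulMemClass.smul_mem (2 : ℂ)⁻¹ (add_mem hx hxs)
    rwa [show (2 : ℂ)⁻¹ • (h1 + Complex.I • h2 + (h1 - Complex.I • h2)) = h1 by module] at this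
  have hh2 : h2 ∈ S := by
    have := SMulMemClass.smul_mem (-Complex.I) (sub_mem hx hh1)
    rwa [add_sub_cancel_left, smul_smul, neg_mul, Complex.I_mul_I, neg_neg, one_smul] at this
  obtain ⟨ht0S, hz1⟩ := sym_mem8 hSc htt (hsym τ ht0 htt) (hcomm y1).2 (hcomm y2).2 n1 n2 hh1
  obtain ⟨hs0S, hz2⟩ := sym_mem8 hSc hss (hsym τ hs0 hss) (hcomm y3).1 (hcomm y4).1 n3 n4 hh2
  obtain ⟨m1, m2⟩ := split_mem hss htt hst (hcomm y1).1 (hcomm y2).1 hs0S ht0S hz1
  obtain ⟨m3, m4⟩ := split_mem htt hss (by rw [hst, neg_neg]) (hcomm y3).2 (hcomm y4).2 ht0S hs0S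
    hz2
  let SD : StarSubalgebra ℂ D := S.comap D.subtype
  have hSD : IsClosed (SD : Set D) := hSc.preimage continuous_subtype_val
  have hvS : v ∈ SD := by
    have e : v = (2 : ℂ)⁻¹ • (y3 - Complex.I • y4) := by
      simp only [y3, y4, smul_smul, Complex.I_mul_I]
      module
    rw [e]
    exact SMulMemClass.smul_mem _ (sub_mem (show y3 ∈ SD from m3)
      (SMulMemClass.smul_mem _ (show y4 ∈ SD from m4)))
  have hle : StarAlgebra.adjoin ℂ (insert v
      (StarAlgebra.adjoin ℂ (Set.range s ∪ Set.range t) : Set D)) ≤ SD := by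
    refine StarAlgebra.adjoin_le (Set.insert_subset hvS (StarAlgebra.adjoin_le ?_))
    rintro _ (⟨j, rfl⟩ | ⟨j, rfl⟩)
    · exact mem_of_ser_mem hSD hP.s_sq hsn hP.ss m2 j
    · exact mem_of_ser_mem hSD hP.t_sq htn hP.tt m1 j
  have happrox : ∀ a ∈ D, ∀ ε : ℝ, 0 < ε → ∃ b ∈ S, τ.n2 (a - b) < ε := fun a ha ε hε => by
    obtain ⟨b, hb, hb'⟩ := hgen ⟨a, ha⟩ ε hε
    rw [τ.comp_n2] at hb'
    exact ⟨b, hle hb, hb'⟩
  intro a ε hε
  obtain ⟨a0, a1, a2, a3, k0, k1, k2, k3, rfl⟩ := hdec a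
  obtain ⟨b0, l0, p0⟩ := happrox a0 k0 (ε / 4) (by positivity)
  obtain ⟨b1, l1, p1⟩ := happrox a1 k1 (ε / 4) (by positivity)
  obtain ⟨b2, l2, p2⟩ := happrox a2 k2 (ε / 4) (by positivity)
  obtain ⟨b3, l3, p3⟩ := happrox a3 k3 (ε / 4) (by positivity)
  refine ⟨b0 + s0 * b1 + t0 * b2 + s0 * t0 * b3, add_mem (add_mem (add_mem l0 (mul_mem hs0S l1))
    (mul_mem ht0S l2)) (mul_mem (mul_mem hs0S ht0S) l3), ?_⟩
  have e : a0 + s0 * a1 + t0 * a2 + s0 * t0 * a3 - (b0 + s0 * b1 + t0 * b2 + s0 * t0 * b3)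
      = (a0 - b0) + s0 * (a1 - b1) + t0 * (a2 - b2) + s0 * (t0 * (a3 - b3)) := by noncomm_ring
  rw [e]
  have q1 := τ.n2_mul_le_of_norm_le_one_left (hsym τ hs0 hss) (a1 - b1)
  have q2 := τ.n2_mul_le_of_norm_le_one_left (hsym τ ht0 htt) (a2 - b2)
  have q3 := τ.n2_mul_le_of_norm_le_one_left (hsym τ ht0 htt) (a3 - b3)
  have q4 := τ.n2_mul_le_of_norm_le_one_left (hsym τ hs0 hss) (t0 * (a3 - b3))
  have r1 := τ.n2_add_le (a0 - b0) (s0 * (a1 - b1))
  have r2 := τ.n2_add_le ((a0 - b0) + s0 * (a1 - b1)) (t0 * (a2 - b2))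
  have r3 := τ.n2_add_le ((a0 - b0) + s0 * (a1 - b1) + t0 * (a2 - b2)) (s0 * (t0 * (a3 - b3)))
  linarith

end Crest.Agent.R95
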